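import Vale.Agent.P146.H762.SkewB
import Vale.Agent.P146.U.AP3
import Vale.Agent.P146.H605.Noise

/-!
# P146: layers of exponent zero (helper566)

`Z s F y = E F(y + s z)`.  `cond_low`: for a convex function `F`, the functional with the exponents
`x` on the share `1 - τ - T`, `a` on the window `T` and `x` on the inner share `τ` is at least
`E F + (a/2) (Q(1-τ) - Q(1-τ-T))`, where `Q(t) = E (E [F | share t])²`.
-/

open MeasureTheory ProbabilityTheory

namespace Vale.Agent.P146.H566.Ch

open Vale.Agent.P157.Lv Vale.Agent.P146.H425 Vale.Agent.P146.U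

variable {κ : Type} [Fintype κ] {F : (κ → ℝ) → ℝ} {D : κ → (κ → ℝ) → ℝ} {B L x a c s t τ T : ℝ}

/-- The layer of exponent zero. -/
noncomputable def Z (s : ℝ) (F : (κ → ℝ) → ℝ) (y : κ → ℝ) : ℝ := ∫ z, F (y + s • z) ∂(gI κ)

lemma c11_Z (h : C11 F D B L) (s : ℝ) : C11 (Z s F) (fun e => Z s (D e)) B L := by
  have hl := h.lip.lip h.B0
  have iF : ∀ y : κ → ℝ, Integrable (fun z => F (y + s • z)) (gI κ) := fun y =>
    (EG.add_smul hl.eg y s).integrable
  have iD : ∀ e (y : κ → ℝ), Integrable (fun z => D e (y + s • z)) (gI κ) := fun e y =>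
    (EG.add_smul (h.eg_D e) y s).integrable
  refine ⟨h.B0, h.L0, fun y w => ?_, fun e => ?_, fun e y => ?_, fun y w => ?_⟩
  · unfold Z
    rw [← integral_sub (iF _) (iF _)]
    refine (abs_integral_le_integral_abs).trans ?_
    refine (integral_mono ((iF _).sub (iF _)).abs (integrable_const (B * ‖w‖)) fun z => ?_).trans
      (le_of_eq (by simp))
    simp only [Pi.sub_apply]
    have e : y + w + s • z = y + s • z + w := by abel
    rw [e]
    exact h.lip _ _
  · exact (EG.conv (h.eg_D e) s).meas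
  · unfold Z
    refine (abs_integral_le_integral_abs).trans ?_
    refine (integral_mono (iD e y).abs (integrable_const B) fun z => h.bd e _).trans
      (le_of_eq (by simp))
  · unfold Z
    have e1 : ∑ e, (∫ z, D e (y + s • z) ∂(gI κ)) * w e =
        ∫ z, ∑ e, D e (y + s • z) * w e ∂(gI κ) := by
      rw [integral_finsetSum _ fun e _ => (iD e y).mul_const _]
      exact Finset.sum_congr rfl fun e _ => (integral_mul_const _ _).symm
    have i1 : Integrable (fun z => F (y + w + s • z) - F (y + s • z)) (gI κ) := (iF _).sub (iF _)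
    have i2 : Integrable (fun z => ∑ e, D e (y + s • z) * w e) (gI κ) :=
      integrable_finsetSum _ fun e _ => (iD e y).mul_const _
    rw [e1, ← integral_sub (iF _) (iF _), ← integral_sub i1 i2]
    refine (abs_integral_le_integral_abs).trans ?_
    refine (integral_mono (i1.sub i2).abs (integrable_const (L * ‖w‖ ^ 2)) fun z => ?_).trans
      (le_of_eq (by simp))
    simp only [Pi.sub_apply]
    have e : y + w + s • z = y + s • z + w := by abel
    rw [e]
    exact h.quad _ _

lemma cv_Z (h : C11 F D B L) (hc : Cv F) (s : ℝ) : Cv (Z s F) := by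
  have hl := h.lip.lip h.B0
  have iF : ∀ y : κ → ℝ, Integrable (fun z => F (y + s • z)) (gI κ) := fun y =>
    (EG.add_smul hl.eg y s).integrable
  intro p q hp hq hpq w0 w1
  unfold Z
  rw [← integral_const_mul, ← integral_const_mul,
    ← integral_add ((iF _).const_mul p) ((iF _).const_mul q)]
  refine integral_mono (iF _) (((iF _).const_mul p).add ((iF _).const_mul q)) fun z => ?_
  simp only
  have e : p • w0 + q • w1 + s • z = p • (w0 + s • z) + q • (w1 + s • z) := by
    have e2 : p • (s • z) + q • (s • z) = s • z := by rw [← add_smul, hpq, one_smul]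
    rw [smul_add, smul_add]
    nth_rewrite 1 [← e2]
    abel
  rw [e]
  exact hc p q hp hq hpq _ _

/-- **One layer of a convex function above the mean plus half of the variance.** -/
lemma W_low (h : C11 F D B L) (hc : Cv F) (hx : 0 < x) (s : ℝ) (y : κ → ℝ) :
    Z s F y + x / 2 * (Z s (fun w => F w ^ 2) y - Z s F y ^ 2) ≤ W x s F y := by
  have hl := h.lip.lip h.B0
  obtain ⟨m, hm⟩ : ∃ m, m = Z s F y := ⟨_, rfl⟩
  have hY : Lip fun z => F (y + s • z) := Lip.shift hl y s
  have i1 : Integrable (fun z => F (y + s • z)) (gI κ) := (EG.add_smul hl.eg y s).integrable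
  have i2 : Integrable (fun z => F (y + s • z) ^ 2) (gI κ) :=
    (EG.add_smul (hl.eg.pow 2) y s).integrable
  have h1 := H762.mgf_low (h.shift y s) (hc.shift y s) hx.le
  have e0 : ∫ z', F (y + s • z') ∂(gI κ) = m := by rw [hm]; rfl
  rw [e0] at h1
  have e1 : ∫ z, (F (y + s • z) - m) ^ 2 ∂(gI κ) = Z s (fun w => F w ^ 2) y - m ^ 2 := by
    have e2 : ∀ z : κ → ℝ, (F (y + s • z) - m) ^ 2 =
        F (y + s • z) ^ 2 - 2 * m * F (y + s • z) + m ^ 2 := fun z => by ring
    simp_rw [e2]
    have i3 : Integrable (fun z => F (y + s • z) ^ 2 - 2 * m * F (y + s • z)) (gI κ) :=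
      i2.sub (i1.const_mul _)
    rw [integral_add i3 (integrable_const _),
      integral_sub i2 (i1.const_mul _), integral_const_mul, e0]
    simp only [integral_const, probReal_univ, smul_eq_mul, one_mul]
    unfold Z
    ring
  rw [e1] at h1
  have e3 : ∫ z, Real.exp (x * (F (y + s • z) - m)) ∂(gI κ) =
      Real.exp (-(x * m)) * ∫ z, Real.exp (x * F (y + s • z)) ∂(gI κ) := by
    rw [← integral_const_mul]
    refine integral_congr_ae (Filter.Eventually.of_forall fun z => ?_)
    simp only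
    rw [← Real.exp_add]
    congr 1
    ring
  have hpos := den_pos hl x s y
  rw [e3, ← Real.le_log_iff_exp_le (mul_pos (Real.exp_pos _) hpos),
    Real.log_mul (Real.exp_pos _).ne' hpos.ne', Real.log_exp] at h1
  rw [← hm]
  have e4 : W x s F y = 1 / x * Real.log (∫ z, Real.exp (x * F (y + s • z)) ∂(gI κ)) := rfl
  rw [e4, one_div, ← div_eq_inv_mul, le_div_iff₀ hx]
  nlinarith

/-- the second moment of the conditional mean -/
noncomputable def Qm (F : (κ → ℝ) → ℝ) (c s : ℝ) : ℝ := ∫ z, Z s F (c • z) ^ 2 ∂(gI κ)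

/-- **The conditional lower bound.** -/
theorem cond_low {r : ℝ} (h : C11 F D B L) (hc : Cv F) (hx : 0 < x) (ha : 0 < a) (c s t : ℝ)
    (hr : c ^ 2 + s ^ 2 = r ^ 2) (hv : s ^ 2 + t ^ 2 = τ ^ 2) (h1 : r ^ 2 + t ^ 2 = 1) :
    (∫ z, F z ∂(gI κ)) + a / 2 * (Qm F r t - Qm F c τ) ≤
      PP x a c s (W x t F) := by
  have hl := h.lip.lip h.B0
  obtain ⟨G, hG⟩ : ∃ G, G = Z t F := ⟨_, rfl⟩
  have hGc : C11 G (fun e => Z t (D e)) B L := by rw [hG]; exact c11_Z h t
  have hGv : Cv G := by rw [hG]; exact cv_Z h hc t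
  have hGl := hGc.lip.lip hGc.B0
  have hWt : C11 (W x t F) (DW x t F D) B (L + 2 * x * (Fintype.card κ * B) ^ 2) := h.W' hx t
  have hWl := hWt.lip.lip hWt.B0
  -- pointwise
  have k1 : ∀ y, Z s G y + a / 2 * (Z s (fun w => G w ^ 2) y - Z s G y ^ 2) ≤
      W a s (W x t F) y := fun y =>
    (W_low hGc hGv ha s y).trans (W_mono hGl hWl ha (fun w => by
      rw [hG]; exact mean_le_W hl hx t w) s y)
  have hA : Lip (W a s (W x t F)) := Lip.W hWl ha s
  have k2 : ∫ z, W a s (W x t F) (0 + c • z) ∂(gI κ) ≤ PP x a c s (W x t F) :=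
    mean_le_W hA hx c 0
  have j1 : EG fun y => Z s G y := EG.conv hGl.eg s
  have j2 : EG fun y => Z s (fun w => G w ^ 2) y := EG.conv (hGl.eg.pow 2) s
  have i1 : Integrable (fun z => Z s G (0 + c • z)) (gI κ) := (EG.add_smul j1 0 c).integrable
  have i2 : Integrable (fun z => Z s (fun w => G w ^ 2) (0 + c • z)) (gI κ) :=
    (EG.add_smul j2 0 c).integrable
  have i3 : Integrable (fun z => Z s G (0 + c • z) ^ 2) (gI κ) :=
    (EG.add_smul (j1.pow 2) 0 c).integrable
  have k3 : ∫ z, (Z s G (0 + c • z) + a / 2 * (Z s (fun w => G w ^ 2) (0 + c • z) -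
      Z s G (0 + c • z) ^ 2)) ∂(gI κ) ≤ ∫ z, W a s (W x t F) (0 + c • z) ∂(gI κ) :=
    integral_mono (i1.add ((i2.sub i3).const_mul _)) (EG.add_smul hA.eg 0 c).integrable
      fun z => k1 _
  have i4 : Integrable (fun z => a / 2 * (Z s (fun w => G w ^ 2) (0 + c • z) -
      Z s G (0 + c • z) ^ 2)) (gI κ) := (i2.sub i3).const_mul _
  rw [integral_add i1 i4, integral_const_mul, integral_sub i2 i3] at k3
  -- the three integrals
  have eZ : ∀ y, Z s G y = Z τ F y := by
    intro y
    rw [hG]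
    unfold Z
    exact gI_rot hl.eg hv y
  have e1 : ∫ z, Z s G (0 + c • z) ∂(gI κ) = ∫ z, F z ∂(gI κ) := by
    have e2 : c ^ 2 + τ ^ 2 = (1 : ℝ) ^ 2 := by
      rw [← hv]
      linarith
    have e3 := gI_rot hl.eg e2 0
    simp only [one_smul, zero_add] at e3
    rw [← e3]
    refine integral_congr_ae (Filter.Eventually.of_forall fun z => ?_)
    simp only [zero_add]
    rw [eZ]
    rfl
  have e2 : ∫ z, Z s (fun w => G w ^ 2) (0 + c • z) ∂(gI κ) = Qm F r t := by
    have e3 := gI_rot (hGl.eg.pow 2) hr 0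
    unfold Qm
    have e4 : ∫ z, Z s (fun w => G w ^ 2) (0 + c • z) ∂(gI κ) =
        ∫ z, G (0 + r • z) ^ 2 ∂(gI κ) := e3
    rw [e4, hG]
    simp only [zero_add]
  have e3 : ∫ z, Z s G (0 + c • z) ^ 2 ∂(gI κ) = Qm F c τ := by
    unfold Qm
    refine integral_congr_ae (Filter.Eventually.of_forall fun z => ?_)
    simp only [zero_add]
    rw [eZ]
  rw [e1, e2, e3] at k3
  exact k3.trans k2

end Vale.Agent.P146.H566.Ch
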