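import Vale.Agent.P146.H566.ChA
import Vale.Agent.P146.H97.TA3
import Vale.Agent.P146.U.H622.FrB

/-!
# P146: the covariance of correlated copies at all scales of decorrelation (helper566)

`near0` : `Var F - K(1 - T) ≤ C n^(1/3) (T n^(1/3))^(1/600)` for `T ≤ n^(-1/3)`.
`far0` : `T prof(1 - T) ≤ C n^(1/3) (T n^(1/3))^(-1/1000)` for `n^(-1/3) ≤ T ≤ 1/2`.
-/

open MeasureTheory ProbabilityTheory

namespace Vale.Agent.P146.H566.Ch

open Vale.Agent.P157.Lv Vale.Agent.P146 Vale.Agent.P146.H425 Vale.Agent.P146.R1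
  Vale.Agent.P146.H332 Vale.Agent.P146.H325 Vale.Agent.P146.U Vale.Agent.P146.H97
  Vale.Agent.P146.H605

section gen

variable {κ : Type} [Fintype κ] {F : (κ → ℝ) → ℝ} {D : κ → (κ → ℝ) → ℝ}
  {B L x a s e T N M σ : ℝ}

/-- **The tail of the windows**, abstract form. -/
theorem tail_abs {M Λ1 CL : ℝ} (hM : 0 < M) (hCL : 0 < CL) : ∃ C : ℝ, 0 < C ∧
    ∀ (κ : Type) [Fintype κ] (F : (κ → ℝ) → ℝ) (D : κ → (κ → ℝ) → ℝ) (B L N x : ℝ),
      C11 F D B L → Cv F → 0 < N → 0 < x → 1 ≤ N * x ^ 6 →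
      UP (N * x ^ 4) x M F → HL N x Λ1 CL F →
      ∀ e m P0 T : ℝ, 0 < e → e ≤ x → 0 ≤ m → x ^ 2 ≤ T → T ≤ 1 / 2 →
      (∀ a y : ℝ, e ≤ a → x ≤ y → P0 + (a - e) / 2 * (T / 2) * m ≤ Q3 x a y (T / 2) (T / 2) F) →
      W x 1 F 0 ≤ P0 + M * (N * x ^ 4 * x) →
      T * m ≤ C * (N * x ^ 4) * (T / x ^ 2) ^ (-(1 / 1000) : ℝ) := by
  obtain ⟨s₀, hs4, hsM, hsΛ, hsC⟩ : ∃ s : ℝ, 4 ≤ s ∧ 16 * M ≤ s ∧
      16 * Λ1 ≤ s ∧ 16 * CL ≤ s :=
    ⟨max 4 (max (16 * M) (max (16 * Λ1) (16 * CL))), by simp, by simp,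
      by simp, by simp⟩
  have hs0 : 0 < s₀ := by linarith
  have hs20 : 0 < s₀ ^ 20 := pow_pos hs0 _
  have hs2 : 0 < s₀ ^ 2 := pow_pos hs0 _
  refine ⟨4 ^ 7 * M * s₀ ^ 20 * s₀ ^ 2 + 1, by positivity,
    fun κ _ F D B L N x h hc hN hx hNx hU hL e m P0 T he0 hex hm0 hT0 hT1 hlowa hP => ?_⟩
  have hx2 : 0 < x ^ 2 := by positivity
  have hx4 : 0 < x ^ 4 := by positivity
  have hG0 : 0 < N * x ^ 4 := mul_pos hN hx4
  have hTp : 0 < T := hx2.trans_le hT0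
  have hr0 : 0 < T / x ^ 2 := div_pos hTp hx2
  have hx1 : x ≤ 1 := by nlinarith
  -- the exponent
  obtain ⟨σ, hσ⟩ : ∃ σ, σ = (T / x ^ 2) ^ (1 / 2000 : ℝ) := ⟨_, rfl⟩
  have hσ0 : 0 < σ := by rw [hσ]; exact Real.rpow_pos_of_pos hr0 _
  have hσ2 : σ ^ 2000 = T / x ^ 2 := by
    rw [hσ]
    exact rpow_2000 hr0.le
  have hTσ : T = x ^ 2 * σ ^ 2000 := by
    rw [hσ2]
    exact (mul_div_cancel₀ T hx2.ne').symm
  have hpow : (T / x ^ 2) ^ (-(1 / 1000) : ℝ) = 1 / σ ^ 2 := by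
    rw [hσ]
    generalize T / x ^ 2 = r at hr0 ⊢
    rw [← Real.rpow_natCast, ← Real.rpow_mul hr0.le, Real.rpow_neg hr0.le, one_div]
    norm_num
  rw [hpow]
  have hσs2 : 0 < σ ^ 2 := pow_pos hσ0 _
  rcases le_total s₀ σ with hle | hge
  · have q : Par3 (N * x ^ 4) x M σ T :=
      ⟨hG0, hx, hx1, hM, hs4.trans hle, hsM.trans hle, hTσ, hT1⟩
    have h1 : T * m ≤ N * x ^ 4 / σ ^ 2 := by
      by_contra hcon
      push Not at hcon
      have h00 := t_low (e := e) (P0 := P0) q h hc hU hcon he0 hex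
        (hlowa _ _ (by
          have : x * 1 ≤ x * σ ^ 40 := mul_le_mul_of_nonneg_left (one_le_pow₀ q.σ1) hx.le
          linarith) le_rfl) hP
      exact lside0 q hN rfl hNx h hc hU hCL hL (hsΛ.trans hle) (hsC.trans hle) h00
    refine h1.trans ?_
    rw [mul_one_div]
    refine div_le_div_of_nonneg_right ?_ hσs2.le
    generalize N * x ^ 4 = G at hG0 ⊢
    generalize s₀ ^ 20 = u at hs20 ⊢
    generalize s₀ ^ 2 = v at hs2 ⊢
    have : 0 ≤ 4 ^ 7 * M * u * v * G := by positivity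
    linarith
  · have hσ1 : 1 ≤ σ := by
      rw [hσ]
      exact Real.one_le_rpow ((one_le_div hx2).2 hT0) (by norm_num)
    have hTs' : T ≤ x ^ 2 * s₀ ^ 2000 := by
      rw [hTσ]
      exact mul_le_mul_of_nonneg_left (pow_le_pow_left₀ hσ0.le hge _) hx2.le
    have h1 := t_crude (G := N * x ^ 4) (σ := s₀) (e := e) (P0 := P0) h hG0 hx hM hU
      (by linarith) hm0 hex hT0 hT1 hTs' (hlowa _ _ (by linarith) (by linarith)) hP
    refine h1.trans ?_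
    have h2 : σ ^ 2 ≤ s₀ ^ 2 := pow_le_pow_left₀ hσ0.le hge 2
    rw [mul_one_div, le_div_iff₀ hσs2]
    clear h1 hTs' hTσ hσ2
    generalize N * x ^ 4 = G at hG0 ⊢
    generalize s₀ ^ 20 = u at hs20 ⊢
    generalize s₀ ^ 2 = v at hs2 h2 ⊢
    have h3 : 4 ^ 7 * M * u * G * σ ^ 2 ≤ 4 ^ 7 * M * u * G * v :=
      mul_le_mul_of_nonneg_left h2 (by positivity)
    linarith

end gen

section sk

variable {n : ℕ} {β x a T τ : ℝ}

lemma Qm_cov (n : ℕ) (β t : ℝ) :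
    Qm (Fsk n β) √t √(1 - t) = crossCov n β t + mF n β ^ 2 := by
  have hf : freeEnergy n β = Fsk n β := by
    funext g
    exact H332.freeEnergy_eq β g
  have h1 := crossCov_QQ n β t
  rw [hf] at h1
  have e1 : H605.QQ (Fsk n β) t = Qm (Fsk n β) √t √(1 - t) := by
    unfold H605.QQ Qm Z
    refine integral_congr_ae (Filter.Eventually.of_forall fun z => ?_)
    simp only
    congr 1
  rw [e1] at h1
  have e2 : ∫ g, Fsk n β g ∂(disorder n) = mF n β := rfl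
  have h2 : crossCov n β t = Qm (Fsk n β) √t √(1 - t) - (∫ g, Fsk n β g ∂(disorder n)) ^ 2 := h1
  rw [e2] at h2
  linarith

/-- **The conditional lower bound for the SK free energy.** -/
theorem cond_sk (hx : 0 < x) (ha : 0 < a) (hτ : 0 ≤ τ) (hT : 0 ≤ T) (h1 : τ + T ≤ 1) :
    mF n β + a / 2 * (crossCov n β (1 - τ) - crossCov n β (1 - τ - T)) ≤
      P3 n β x τ x T a := by
  have h := c11_lz (β / √n) (SkS (n := n))
  have hc := cv_lz (β / √n) (SkS (n := n))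
  have s1 : √(1 - τ - T) ^ 2 = 1 - τ - T := Real.sq_sqrt (by linarith)
  have s2 : √T ^ 2 = T := Real.sq_sqrt hT
  have s3 : √(1 - τ) ^ 2 = 1 - τ := Real.sq_sqrt (by linarith)
  have s4 : √τ ^ 2 = τ := Real.sq_sqrt hτ
  have s5 : √(1 - (1 - τ - T)) ^ 2 = τ + T := by rw [Real.sq_sqrt (by linarith)]; ring
  have k := cond_low (τ := √(1 - (1 - τ - T))) (r := √(1 - τ)) h hc hx ha √(1 - τ - T) √T √τ
    (by rw [s1, s2, s3]; ring) (by rw [s2, s4, s5]; ring) (by rw [s3, s4]; ring)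
  have e1 := Qm_cov n β (1 - τ)
  have e2 := Qm_cov n β (1 - τ - T)
  have e3 : 1 - (1 - τ) = τ := by ring
  rw [e3] at e1
  have e4 : ∫ z, lz (β / √n) (SkS (n := n)) z ∂(gI (Pair n)) = mF n β := rfl
  have e5 : Qm (lz (β / √n) (SkS (n := n))) √(1 - τ) √τ = crossCov n β (1 - τ) + mF n β ^ 2 := e1
  have e6 : Qm (lz (β / √n) (SkS (n := n))) √(1 - τ - T) √(1 - (1 - τ - T)) =
    crossCov n β (1 - τ - T) + mF n β ^ 2 := e2
  rw [e4, e5, e6] at k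
  have e7 : crossCov n β (1 - τ) + mF n β ^ 2 - (crossCov n β (1 - τ - T) + mF n β ^ 2) =
    crossCov n β (1 - τ) - crossCov n β (1 - τ - T) := by ring
  rw [e7] at k
  exact k

lemma P3_zero (hx : 0 < x) : P3 n β x 0 x T a = P2 n β x T a := by
  unfold P3 P2
  have e : W x √0 (Fsk n β) = Fsk n β := by
    funext y
    rw [Real.sqrt_zero, W_zero hx]
  rw [e, sub_zero]

/-- the scale `n^(-1/6)` -/
lemma rp (hn : 0 < (n : ℝ)) : ((n : ℝ) ^ (-(1 / 6) : ℝ)) ^ 2 = (n : ℝ) ^ (-(1 / 3) : ℝ) ∧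
    (n : ℝ) * ((n : ℝ) ^ (-(1 / 6) : ℝ)) ^ 4 = (n : ℝ) ^ (1 / 3 : ℝ) := by
  constructor
  · rw [← Real.rpow_natCast, ← Real.rpow_mul hn.le]
    norm_num
  · rw [← Real.rpow_natCast, ← Real.rpow_mul hn.le]
    nth_rewrite 1 [← Real.rpow_one (n : ℝ)]
    rw [← Real.rpow_add hn]
    norm_num

/-- **Near: the conditional variance on a small share.** -/
theorem near0 (hβ : 0 ≤ β) (hK : U.Fr.Ex2Key β) (h2 : Ex2Out β) (hL : LStar β) :
    ∃ C : ℝ, ∃ n0 : ℕ, 0 < C ∧ ∀ n : ℕ, n0 ≤ n → ∀ T : ℝ, 0 < T → T ≤ (n : ℝ) ^ (-(1 / 3) : ℝ) →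
      Var[freeEnergy n β; disorder n] - crossCov n β (1 - T) ≤
        C * (n : ℝ) ^ (1 / 3 : ℝ) * (T * (n : ℝ) ^ (1 / 3 : ℝ)) ^ (1 / 600 : ℝ) := by
  obtain ⟨C1, n1, hC1, hK⟩ := hK
  obtain ⟨C3, n3, hC3, h3⟩ := ex3 hβ h2 hL
  refine ⟨2 * (C1 + 2 * C3), max (max n1 n3) 1, by positivity, fun n hn T hT hT1 => ?_⟩
  have hn1 : n1 ≤ n := (le_max_left _ _).trans ((le_max_left _ _).trans hn)
  have hn3 : n3 ≤ n := (le_max_right _ _).trans ((le_max_left _ _).trans hn)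
  have hn11 : 1 ≤ n := (le_max_right _ _).trans hn
  have hnR : (1 : ℝ) ≤ n := by exact_mod_cast hn11
  have hn0 : (0 : ℝ) < n := by linarith
  obtain ⟨x, hx⟩ : ∃ x : ℝ, x = (n : ℝ) ^ (-(1 / 6) : ℝ) := ⟨_, rfl⟩
  obtain ⟨r1, r2⟩ := rp hn0
  rw [← hx] at r1 r2
  have hx0 : 0 < x := by rw [hx]; positivity
  have hx10 : x ≤ (n : ℝ) ^ (-(1 / 10) : ℝ) := by
    rw [hx]
    exact Real.rpow_le_rpow_of_exponent_le hnR (by norm_num)
  have hx2 : 0 < x ^ 2 := by positivity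
  have hT11 : T ≤ 1 := hT1.trans (Real.rpow_le_one_of_one_le_of_nonpos hnR (by norm_num))
  obtain ⟨s, hs⟩ : ∃ s : ℝ, s = T / x ^ 2 := ⟨_, rfl⟩
  have hs0 : 0 < s := by rw [hs]; positivity
  have hs1 : s ≤ 1 := by
    rw [hs, div_le_one hx2, r1]
    exact hT1
  have es : T * (n : ℝ) ^ (1 / 3 : ℝ) = s := by
    rw [hs, r1, Real.rpow_neg hn0.le, div_inv_eq_mul]
  obtain ⟨v, hv⟩ : ∃ v : ℝ, v = s ^ (1 / 600 : ℝ) := ⟨_, rfl⟩
  have hv0 : 0 < v := by rw [hv]; positivity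
  have hv1 : v ≤ 1 := by rw [hv]; exact Real.rpow_le_one hs0.le hs1 (by norm_num)
  have hv6 : s ^ (1 / 100 : ℝ) = v ^ 6 := by
    rw [hv, ← Real.rpow_natCast, ← Real.rpow_mul hs0.le]
    norm_num
  have hvi : s ^ (-(1 / 600) : ℝ) = v⁻¹ := by rw [hv, Real.rpow_neg hs0.le]
  obtain ⟨b, hb⟩ : ∃ b : ℝ, b = x * v⁻¹ := ⟨_, rfl⟩
  have hvi1 : 1 ≤ v⁻¹ := (one_le_inv₀ hv0).2 hv1
  have hb0 : 0 < b := by rw [hb]; positivity
  have hxb : x ≤ b := by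
    rw [hb]
    exact le_mul_of_one_le_right hx0.le hvi1
  have k1 := hK n hn1 x b T (by rw [hx]) hx10 hxb hT hT11 (by rw [← hs, hvi, ← hb])
  rw [← hs, hv6] at k1
  have e1 : (n : ℝ) * x ^ 4 * b * (b / x) ^ 5 * v ^ 6 = n * x ^ 4 * x := by
    rw [hb]
    field_simp
  rw [e1] at k1
  -- the pure law
  have k2 : P2 n β x T x - mF n β ≤ 2 * C3 * (n * x ^ 5) := by
    rw [AP.P2_self hx0 hT.le hT11]
    exact H607.P1_up (β := β) (n := n) hC3.le hn0 (x0 := (n : ℝ) ^ (-(1 / 6) : ℝ))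
      (X := (n : ℝ) ^ (-(1 / 10) : ℝ)) (Real.rpow_pos_of_pos hn0 _) (fun x h6 h7 => by
        have h8 := h3 n hn3 x h6 h7
        have hx : 0 < x := (Real.rpow_pos_of_pos hn0 _).trans_le h6
        rw [AP.P2_one hx, AP.P2_one hx] at h8
        exact h8) (by rw [hx]) hx10
  have k3 := cond_sk (n := n) (β := β) (x := x) (a := b) (τ := 0) (T := T) hx0 hb0 le_rfl hT.le
    (by linarith)
  rw [P3_zero hx0, sub_zero, crossCov_one n β hn11] at k3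
  obtain ⟨V, hV⟩ : ∃ V, V = Var[freeEnergy n β; disorder n] - crossCov n β (1 - T) := ⟨_, rfl⟩
  rw [← hV] at k3 ⊢
  have k4 : b / 2 * V ≤ (C1 + 2 * C3) * (n * x ^ 4 * x) := by
    have e2 : (n : ℝ) * x ^ 5 = n * x ^ 4 * x := by ring
    rw [e2] at k2
    linarith
  rw [es, ← hv, ← r2]
  have k5 : V * b ≤ 2 * (C1 + 2 * C3) * (n * x ^ 4) * v * b := by
    have e3 : 2 * (C1 + 2 * C3) * (n * x ^ 4) * v * b = 2 * ((C1 + 2 * C3) * (n * x ^ 4 * x)) := by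
      rw [hb]
      field_simp
    rw [e3]
    linarith
  exact le_of_mul_le_mul_right k5 hb0

/-- **Far: the windows beyond the scale `n^(-1/3)`.** -/
theorem far0 (hβ : 0 ≤ β) (h2 : Ex2Out β) (hL : LStar β) :
    ∃ C : ℝ, ∃ n0 : ℕ, 0 < C ∧ ∀ n : ℕ, n0 ≤ n → ∀ T : ℝ, (n : ℝ) ^ (-(1 / 3) : ℝ) ≤ T →
      T ≤ 1 / 2 → T * prof n β (1 - T) ≤
        C * (n : ℝ) ^ (1 / 3 : ℝ) * (T * (n : ℝ) ^ (1 / 3 : ℝ)) ^ (-(1 / 1000) : ℝ) := by
  obtain ⟨M, Λ1, CL, n1, hM, hCL, hy⟩ := hy_sk hβ h2 hL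
  obtain ⟨C3, n3, hC3, h3⟩ := ex3 hβ h2 hL
  obtain ⟨M', hM'⟩ : ∃ M', M' = max M (2 * C3) := ⟨_, rfl⟩
  have hM'0 : 0 < M' := by rw [hM']; exact lt_max_of_lt_left hM
  obtain ⟨C, hC, htail⟩ := tail_abs (M := M') (Λ1 := Λ1) (CL := CL) hM'0 hCL
  refine ⟨C, max (max n1 n3) 1, hC, fun n hn T hT0 hT1 => ?_⟩
  have hn1 : n1 ≤ n := (le_max_left _ _).trans ((le_max_left _ _).trans hn)
  have hn3 : n3 ≤ n := (le_max_right _ _).trans ((le_max_left _ _).trans hn)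
  have hn11 : 1 ≤ n := (le_max_right _ _).trans hn
  have hnR : (1 : ℝ) ≤ n := by exact_mod_cast hn11
  have hn0 : (0 : ℝ) < n := by linarith
  obtain ⟨x, hx⟩ : ∃ x : ℝ, x = (n : ℝ) ^ (-(1 / 6) : ℝ) := ⟨_, rfl⟩
  obtain ⟨r1, r2⟩ := rp hn0
  rw [← hx] at r1 r2
  have hx0 : 0 < x := by rw [hx]; positivity
  have hx10 : x ≤ (n : ℝ) ^ (-(1 / 10) : ℝ) := by
    rw [hx]
    exact Real.rpow_le_rpow_of_exponent_le hnR (by norm_num)
  have hx2 : 0 < x ^ 2 := by positivity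
  have hy := hy n hn1 x x hx0 (by rw [hx]) hx10
  have hG : 0 < (n : ℝ) * x ^ 4 := by positivity
  have hT : 0 < T := lt_of_lt_of_le (by positivity) hT0
  have hp : 0 ≤ prof n β (1 - T) := prof_nonneg n β hn11 (by linarith) (by linarith)
  have k2 : W x 1 (Fsk n β) 0 ≤ mF n β + M' * (n * x ^ 4 * x) := by
    have h5 := H607.P1_up (β := β) (n := n) hC3.le hn0 (x0 := (n : ℝ) ^ (-(1 / 6) : ℝ))
      (X := (n : ℝ) ^ (-(1 / 10) : ℝ)) (Real.rpow_pos_of_pos hn0 _) (fun x h6 h7 => by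
        have h8 := h3 n hn3 x h6 h7
        have hx : 0 < x := (Real.rpow_pos_of_pos hn0 _).trans_le h6
        rw [AP.P2_one hx, AP.P2_one hx] at h8
        exact h8) (x := x) (by rw [hx]) hx10
    have e1 : W x 1 (Fsk n β) 0 = P1 n β x := rfl
    rw [e1]
    have h7 : 2 * C3 * (n * x ^ 5) ≤ M' * (n * x ^ 4 * x) := by
      have e3 : (n : ℝ) * x ^ 4 * x = n * x ^ 5 := by ring
      rw [e3, hM']
      exact mul_le_mul_of_nonneg_right (le_max_right _ _) (by positivity)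
    linarith
  have h := c11_lz (β / √n) (SkS (n := n))
  have hc := cv_lz (β / √n) (SkS (n := n))
  have h' : C11 (Fsk n β) _ _ _ := h
  have hc' : Cv (Fsk n β) := hc
  have hlow : ∀ a y : ℝ, x ≤ a → x ≤ y → mF n β + (a - x) / 2 * (T / 2) * prof n β (1 - T) ≤
      Q3 x a y (T / 2) (T / 2) (Fsk n β) := by
    intro a y ha hxy
    have ha0 : 0 < a := hx0.trans_le ha
    have k3 := cond_sk (n := n) (β := β) (x := x) (a := a) (τ := T / 2) (T := T / 2) hx0 ha0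
      (by linarith) (by linarith) (by linarith)
    have k4 := crossCov_sub n β hn11 (s := 1 - T) (t := 1 - T / 2) (by linarith) (by linarith)
      (by linarith)
    have e1 : 1 - T / 2 - T / 2 = 1 - T := by ring
    have e2 : 1 - T / 2 - (1 - T) = T / 2 := by ring
    rw [e1] at k3
    rw [e2] at k4
    have k5 : Q3 x a x (T / 2) (T / 2) (Fsk n β) ≤ Q3 x a y (T / 2) (T / 2) (Fsk n β) :=
      Q3_mono_y h' hc' hx0 ha0 hx0 hxy
    have e3 : P3 n β x (T / 2) x (T / 2) a = Q3 x a x (T / 2) (T / 2) (Fsk n β) := rfl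
    rw [e3] at k3
    have k6 : (a - x) / 2 * (T / 2) * prof n β (1 - T) ≤
        a / 2 * (crossCov n β (1 - T / 2) - crossCov n β (1 - T)) := by
      have k7 : (a - x) / 2 * (T / 2 * prof n β (1 - T)) ≤ a / 2 * (T / 2 * prof n β (1 - T)) :=
        mul_le_mul_of_nonneg_right (by linarith) (by positivity)
      have k8 := mul_le_mul_of_nonneg_left k4 (show 0 ≤ a / 2 by positivity)
      rw [mul_assoc]
      linarith
    linarith
  have k := htail (Pair n) (Fsk n β) _ _ _ n x h' hc' hn0 hx0 hy.six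
    (UP_mono hy.up hG hx0 (by rw [hM']; exact le_max_left _ _)) hy.hl x (prof n β (1 - T))
    (mF n β) T hx0 le_rfl hp (by rw [r1]; exact hT0) hT1 hlow k2
  have es : T * (n : ℝ) ^ (1 / 3 : ℝ) = T / x ^ 2 := by
    rw [r1, Real.rpow_neg hn0.le, div_inv_eq_mul]
  rw [r2] at k
  rw [es]
  exact k

end sk

end Vale.Agent.P146.H566.Ch
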