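import Vale.Agent.P146.H566.ChB
import Vale.Agent.P146.H607.Fin4
import Vale.Agent.P146.R3.H793.LevP
import Vale.Agent.P146.R2.H952.Sharp
import Vale.Agent.P146.H605.Indep

/-!
# P146: the covariance of correlated copies for all sizes (helper566)

For `β > 1`, all `n ≥ 1` and `0 < T ≤ 1`, with `s = T n^(1/3)`: `Var F - K(1 - T)` and `T prof (1 - T)`
are at most `C n^(1/3) s^(1/1000)`, and `K(1 - T)`, `T prof(1 - T)` at most
`C n^(1/3) s^(-1/1000)`.
-/

open MeasureTheory ProbabilityTheory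

namespace Vale.Agent.P146.H566.Ch

open Vale.Agent.P157.Lv Vale.Agent.P146 Vale.Agent.P146.H425 Vale.Agent.P146.U
  Vale.Agent.P146.H605

variable {n : ℕ} {β T : ℝ}

lemma crossCov_sub_le (hn : 1 ≤ n) {s t : ℝ} (h0 : 0 ≤ s) (hst : s ≤ t) (h1 : t ≤ 1) :
    crossCov n β t - crossCov n β s ≤ (t - s) * prof n β t := by
  rw [crossCov_formula n β hn (h0.trans hst) h1, crossCov_formula n β hn h0 (hst.trans h1)]
  have hi := prof_intervalIntegrable n β hn h0 hst h1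
  rw [intervalIntegral.integral_interval_sub_left
    (prof_intervalIntegrable n β hn le_rfl (h0.trans hst) h1)
    (prof_intervalIntegrable n β hn le_rfl h0 (hst.trans h1))]
  have h2 : ∫ a in s..t, prof n β a ≤ ∫ _a in s..t, prof n β t := by
    refine intervalIntegral.integral_mono_on hst hi (by simp) fun a ha => ?_
    exact prof_mono n β hn (h0.trans ha.1) ha.2 h1
  simpa using h2

lemma prof_le (hn : 1 ≤ n) {t : ℝ} (h0 : 0 ≤ t) (h1 : t ≤ 1) : prof n β t ≤ β ^ 2 * n / 2 :=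
  (prof_mono n β hn h0 h1 le_rfl).trans (R2.H952.prof_one_le n β hn)

/-- `Var F - K(1-T) ≥ T prof (1-T)`. -/
lemma prof_le_diff (hn : 1 ≤ n) (hT : 0 ≤ T) (hT1 : T ≤ 1) :
    T * prof n β (1 - T) ≤ Var[freeEnergy n β; disorder n] - crossCov n β (1 - T) := by
  have h := crossCov_sub n β hn (s := 1 - T) (t := 1) (by linarith) (by linarith) le_rfl
  rw [crossCov_one n β hn] at h
  have e : 1 - (1 - T) = T := by ring
  rwa [e] at h

/-- powers of `s ≤ 1` -/
lemma pow_small {s a b : ℝ} (hs0 : 0 < s) (hs1 : s ≤ 1) (hab : a ≤ b) : s ^ b ≤ s ^ a :=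
  Real.rpow_le_rpow_of_exponent_ge hs0 hs1 hab

/-- **Near, all sizes.** -/
theorem near_all (hβ : 1 < β) : ∃ C : ℝ, 0 < C ∧ ∀ n : ℕ, 1 ≤ n → ∀ T : ℝ, 0 < T → T ≤ 1 →
    Var[freeEnergy n β; disorder n] - crossCov n β (1 - T) ≤
      C * (n : ℝ) ^ (1 / 3 : ℝ) * (T * (n : ℝ) ^ (1 / 3 : ℝ)) ^ (1 / 1000 : ℝ) := by
  have hβ0 : 0 < β := by linarith
  have h2 : Ex2Out β := ex2_of (H240.kstar hβ0) (cgfU hβ)
  have hL : LStar β := lstar_of_lrho (H979.lrho hβ0)
  obtain ⟨C1, n0, hC1, h1⟩ := near0 hβ0.le (U.Fr.ex2_key (H240.kstar hβ0) (cgfU hβ)) h2 hL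
  obtain ⟨C2, hC2, hV⟩ := H607.final hβ
  refine ⟨C1 + C2 + β ^ 2 * n0, by positivity, fun n hn T hT hT1 => ?_⟩
  have hnR : (1 : ℝ) ≤ n := by exact_mod_cast hn
  have hn0 : (0 : ℝ) < n := by linarith
  obtain ⟨N, hN⟩ : ∃ N : ℝ, N = (n : ℝ) ^ (1 / 3 : ℝ) := ⟨_, rfl⟩
  have hN1 : 1 ≤ N := by rw [hN]; exact Real.one_le_rpow hnR (by norm_num)
  have hN0 : 0 < N := by linarith
  have hTN : 0 < T * N := by positivity
  rw [← hN]
  have hVn : Var[freeEnergy n β; disorder n] ≤ C2 * N := by rw [hN]; exact (hV n hn).1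
  have hK0 : 0 ≤ crossCov n β (1 - T) := crossCov_nonneg n β (by linarith) (by linarith)
  have hβn : 0 ≤ β ^ 2 * n0 := by positivity
  rcases le_or_gt 1 (T * N) with hs | hs
  · have h3 : 1 ≤ (T * N) ^ (1 / 1000 : ℝ) := Real.one_le_rpow hs (by norm_num)
    have h4 : C2 * N ≤ (C1 + C2 + β ^ 2 * n0) * N := by
      refine mul_le_mul_of_nonneg_right (by linarith) hN0.le
    have h5 : (C1 + C2 + β ^ 2 * n0) * N ≤
        (C1 + C2 + β ^ 2 * n0) * N * (T * N) ^ (1 / 1000 : ℝ) :=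
      le_mul_of_one_le_right (by positivity) h3
    linarith
  rcases le_or_gt n0 n with hnn | hnn
  · have h3 : T ≤ (n : ℝ) ^ (-(1 / 3) : ℝ) := by
      rw [Real.rpow_neg hn0.le, ← hN, ← one_div, le_div_iff₀ hN0]
      exact hs.le
    have h4 := h1 n hnn T hT h3
    rw [← hN] at h4
    refine h4.trans ?_
    have h5 : (T * N) ^ (1 / 600 : ℝ) ≤ (T * N) ^ (1 / 1000 : ℝ) :=
      pow_small hTN hs.le (by norm_num)
    exact mul_le_mul (mul_le_mul_of_nonneg_right (by linarith) hN0.le) h5 (by positivity)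
      (by positivity)
  · have h3 := crossCov_sub_le (n := n) (β := β) hn (s := 1 - T) (t := 1) (by linarith)
      (by linarith) le_rfl
    rw [crossCov_one n β hn] at h3
    have h4 := prof_le (n := n) (β := β) hn zero_le_one le_rfl
    have e : 1 - (1 - T) = T := by ring
    rw [e] at h3
    have hnn' : (n : ℝ) ≤ n0 := by exact_mod_cast hnn.le
    have h5 : T * prof n β 1 ≤ T * (β ^ 2 * n0) := by
      refine mul_le_mul_of_nonneg_left (h4.trans ?_) hT.le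
      have : β ^ 2 * (n : ℝ) ≤ β ^ 2 * n0 := mul_le_mul_of_nonneg_left hnn' (by positivity)
      have : 0 ≤ β ^ 2 * (n : ℝ) := by positivity
      linarith
    have h6 : T ≤ (T * N) ^ (1 / 1000 : ℝ) := by
      have h7 : T ≤ T * N := le_mul_of_one_le_right hT.le hN1
      have h8 : (T * N) ^ (1 : ℝ) ≤ (T * N) ^ (1 / 1000 : ℝ) := pow_small hTN hs.le (by norm_num)
      rw [Real.rpow_one] at h8
      linarith
    have h7 : T * (β ^ 2 * n0) ≤ (C1 + C2 + β ^ 2 * n0) * N * (T * N) ^ (1 / 1000 : ℝ) := by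
      rw [mul_comm T]
      refine mul_le_mul ?_ h6 hT.le (by positivity)
      have h8 : β ^ 2 * (n0 : ℝ) ≤ β ^ 2 * n0 * N := le_mul_of_one_le_right hβn hN1
      have h9 : 0 ≤ (C1 + C2) * N := by positivity
      linarith
    linarith

/-- **Far, all sizes.** -/
theorem far_all (hβ : 1 < β) : ∃ C : ℝ, 0 < C ∧ ∀ n : ℕ, 1 ≤ n → ∀ T : ℝ, 0 < T → T ≤ 1 →
    T * prof n β (1 - T) ≤
      C * (n : ℝ) ^ (1 / 3 : ℝ) * (T * (n : ℝ) ^ (1 / 3 : ℝ)) ^ (-(1 / 1000) : ℝ) := by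
  have hβ0 : 0 < β := by linarith
  have h2 : Ex2Out β := ex2_of (H240.kstar hβ0) (cgfU hβ)
  have hL : LStar β := lstar_of_lrho (H979.lrho hβ0)
  obtain ⟨C1, n1, hC1, h1⟩ := far0 hβ0.le h2 hL
  obtain ⟨C2, hC2, hV⟩ := H607.final hβ
  obtain ⟨n0, hn0'⟩ : ∃ n0 : ℕ, n0 = max n1 8 := ⟨_, rfl⟩
  refine ⟨4 * C1 + C2 + β ^ 2 * n0, by positivity, fun n hn T hT hT1 => ?_⟩
  have hnR : (1 : ℝ) ≤ n := by exact_mod_cast hn
  have hn0 : (0 : ℝ) < n := by linarith
  obtain ⟨N, hN⟩ : ∃ N : ℝ, N = (n : ℝ) ^ (1 / 3 : ℝ) := ⟨_, rfl⟩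
  have hN1 : 1 ≤ N := by rw [hN]; exact Real.one_le_rpow hnR (by norm_num)
  have hN0 : 0 < N := by linarith
  have hTN : 0 < T * N := by positivity
  rw [← hN]
  have hVn : Var[freeEnergy n β; disorder n] ≤ C2 * N := by rw [hN]; exact (hV n hn).1
  have hK0 : 0 ≤ crossCov n β (1 - T) := crossCov_nonneg n β (by linarith) (by linarith)
  have hβn : 0 ≤ β ^ 2 * n0 := by positivity
  have hpd := prof_le_diff (n := n) (β := β) hn hT.le hT1
  have hp := prof_nonneg n β hn (t := 1 - T) (by linarith) (by linarith)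
  rcases le_or_gt n0 n with hnn | hnn
  · have hn8 : 8 ≤ n := by omega
    have hn11 : n1 ≤ n := by omega
    have hN2 : 2 ≤ N := by
      have h8 : (8 : ℝ) ≤ n := by exact_mod_cast hn8
      have h9 : (8 : ℝ) ^ (1 / 3 : ℝ) ≤ N := by
        rw [hN]
        exact Real.rpow_le_rpow (by norm_num) h8 (by norm_num)
      have h10 : (8 : ℝ) ^ (1 / 3 : ℝ) = 2 := by
        rw [show (8 : ℝ) = 2 ^ (3 : ℝ) by norm_num, ← Real.rpow_mul (by norm_num)]
        norm_num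
      linarith
    have hn3 : (n : ℝ) ^ (-(1 / 3) : ℝ) = N⁻¹ := by rw [Real.rpow_neg hn0.le, ← hN]
    have h14 : N⁻¹ ≤ 1 / 2 := by
      rw [inv_le_comm₀ hN0 (by norm_num)]
      linarith
    rcases le_or_gt (T * N) 1 with hs | hs
    · have h3 : 1 ≤ (T * N) ^ (-(1 / 1000) : ℝ) :=
        Real.one_le_rpow_of_pos_of_le_one_of_nonpos hTN hs (by norm_num)
      have h4 : C2 * N ≤ (4 * C1 + C2 + β ^ 2 * n0) * N := by
        refine mul_le_mul_of_nonneg_right (by linarith) hN0.le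
      have h5 : (4 * C1 + C2 + β ^ 2 * n0) * N ≤
          (4 * C1 + C2 + β ^ 2 * n0) * N * (T * N) ^ (-(1 / 1000) : ℝ) :=
        le_mul_of_one_le_right (by positivity) h3
      linarith
    have h3 : (n : ℝ) ^ (-(1 / 3) : ℝ) ≤ T := by
      rw [hn3, inv_le_iff_one_le_mul₀ hN0]
      linarith
    rcases le_or_gt T (1 / 2) with h12 | h12
    · have h4 := h1 n hn11 T h3 h12
      rw [← hN] at h4
      refine h4.trans ?_
      exact mul_le_mul_of_nonneg_right (mul_le_mul_of_nonneg_right (by linarith) hN0.le)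
        (by positivity)
    have h4 := h1 n hn11 (1 / 2) (by rw [hn3]; exact h14) le_rfl
    rw [← hN] at h4
    have h5 : prof n β (1 - T) ≤ prof n β (1 - 1 / 2) :=
      prof_mono n β hn (by linarith) (by linarith) (by linarith)
    have h6 : (1 / 2 * N) ^ (-(1 / 1000) : ℝ) ≤ 2 * (T * N) ^ (-(1 / 1000) : ℝ) := by
      rw [Real.mul_rpow (by norm_num) hN0.le, Real.mul_rpow hT.le hN0.le, ← mul_assoc]
      refine mul_le_mul_of_nonneg_right ?_ (by positivity)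
      have h7 : (1 / 2 : ℝ) ^ (-(1 / 1000) : ℝ) ≤ 2 := by
        have h8 : (1 / 2 : ℝ) ^ (-(1 / 1000) : ℝ) ≤ (1 / 2 : ℝ) ^ (-1 : ℝ) :=
          pow_small (by norm_num) (by norm_num) (by norm_num)
        rw [Real.rpow_neg_one] at h8
        norm_num at h8 ⊢
        exact h8
      have h8 : 1 ≤ T ^ (-(1 / 1000) : ℝ) :=
        Real.one_le_rpow_of_pos_of_le_one_of_nonpos hT hT1 (by norm_num)
      linarith
    have h7 : T * prof n β (1 - T) ≤ 2 * (1 / 2 * prof n β (1 - 1 / 2)) := by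
      nlinarith
    have h8 : 2 * (C1 * N * (1 / 2 * N) ^ (-(1 / 1000) : ℝ)) ≤
        2 * (C1 * N * (2 * (T * N) ^ (-(1 / 1000) : ℝ))) := by
      refine mul_le_mul_of_nonneg_left ?_ (by norm_num)
      exact mul_le_mul_of_nonneg_left h6 (by positivity)
    have h9 : 2 * (C1 * N * (2 * (T * N) ^ (-(1 / 1000) : ℝ))) ≤
        (4 * C1 + C2 + β ^ 2 * n0) * N * (T * N) ^ (-(1 / 1000) : ℝ) := by
      have e : 2 * (C1 * N * (2 * (T * N) ^ (-(1 / 1000) : ℝ))) =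
        (4 * C1) * N * (T * N) ^ (-(1 / 1000) : ℝ) := by ring
      rw [e]
      exact mul_le_mul_of_nonneg_right (mul_le_mul_of_nonneg_right (by linarith) hN0.le)
        (by positivity)
    linarith
  · have h4 := prof_le (n := n) (β := β) hn (t := 1 - T) (by linarith) (by linarith)
    have hnn' : (n : ℝ) ≤ n0 := by exact_mod_cast hnn.le
    have h5 : T * prof n β (1 - T) ≤ β ^ 2 * n0 := by
      have h6 : β ^ 2 * (n : ℝ) ≤ β ^ 2 * n0 := mul_le_mul_of_nonneg_left hnn' (by positivity)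
      have h7 : 0 ≤ β ^ 2 * (n : ℝ) := by positivity
      have h8 : T * prof n β (1 - T) ≤ 1 * prof n β (1 - T) :=
        mul_le_mul_of_nonneg_right hT1 hp
      linarith
    have h6 : 1 ≤ N * (T * N) ^ (-(1 / 1000) : ℝ) := by
      have h7 : N ^ (-(1 / 1000) : ℝ) ≤ (T * N) ^ (-(1 / 1000) : ℝ) :=
        Real.rpow_le_rpow_of_nonpos hTN (mul_le_of_le_one_left hN0.le hT1) (by norm_num)
      have h8 : 1 ≤ N * N ^ (-(1 / 1000) : ℝ) := by
        nth_rewrite 1 [← Real.rpow_one N]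
        rw [← Real.rpow_add hN0]
        exact Real.one_le_rpow hN1 (by norm_num)
      exact h8.trans (mul_le_mul_of_nonneg_left h7 hN0.le)
    rw [mul_assoc]
    have h7 : β ^ 2 * (n0 : ℝ) ≤ β ^ 2 * n0 * (N * (T * N) ^ (-(1 / 1000) : ℝ)) :=
      le_mul_of_one_le_right hβn h6
    have h8 : β ^ 2 * (n0 : ℝ) * (N * (T * N) ^ (-(1 / 1000) : ℝ)) ≤
        (4 * C1 + C2 + β ^ 2 * n0) * (N * (T * N) ^ (-(1 / 1000) : ℝ)) :=
      mul_le_mul_of_nonneg_right (by linarith) (by positivity)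
    linarith

/-- **The covariance far from one.** -/
theorem cov_all (hβ : 1 < β) : ∃ C : ℝ, 0 < C ∧ ∀ n : ℕ, 1 ≤ n → ∀ T : ℝ, 0 < T → T ≤ 1 →
    crossCov n β (1 - T) ≤
      C * (n : ℝ) ^ (1 / 3 : ℝ) * (T * (n : ℝ) ^ (1 / 3 : ℝ)) ^ (-(1 / 1000) : ℝ) := by
  obtain ⟨C, hC, h⟩ := far_all hβ
  refine ⟨1000 * C, by positivity, fun n hn T hT hT1 => ?_⟩
  have hnR : (1 : ℝ) ≤ n := by exact_mod_cast hn
  have hn0 : (0 : ℝ) < n := by linarith
  obtain ⟨N, hN⟩ : ∃ N : ℝ, N = (n : ℝ) ^ (1 / 3 : ℝ) := ⟨_, rfl⟩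
  have hN0 : 0 < N := by rw [hN]; positivity
  have h1 := fun T h0 h1 => h n hn T h0 h1
  rw [← hN] at h1 ⊢
  obtain ⟨A, hA⟩ : ∃ A : ℝ, A = C * N * N ^ (-(1 / 1000) : ℝ) := ⟨_, rfl⟩
  have hA0 : 0 < A := by rw [hA]; positivity
  have h2 : ∀ a ∈ Set.Icc (0 : ℝ) (1 - T), prof n β a ≤
      A * ((1 - a) ^ (-(1 / 1000) - 1 : ℝ)) := by
    intro a ha
    have ha1 : 0 < 1 - a := by linarith [ha.2]
    have h3 := h1 (1 - a) ha1 (by linarith [ha.1])
    have e : 1 - (1 - a) = a := by ring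
    rw [e, Real.mul_rpow ha1.le hN0.le] at h3
    have h4 : (1 - a) * prof n β a ≤ (1 - a) * (A * ((1 - a) ^ (-(1 / 1000) - 1 : ℝ))) := by
      have e2 : (1 - a) * (A * ((1 - a) ^ (-(1 / 1000) - 1 : ℝ))) =
          C * N * ((1 - a) ^ (-(1 / 1000) : ℝ) * N ^ (-(1 / 1000) : ℝ)) := by
        rw [Real.rpow_sub ha1, Real.rpow_one, hA]
        field_simp
      rw [e2]
      exact h3
    exact le_of_mul_le_mul_left h4 ha1
  rw [crossCov_formula n β hn (by linarith) (by linarith)]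
  have hi := prof_intervalIntegrable n β hn le_rfl (show (0 : ℝ) ≤ 1 - T by linarith)
    (by linarith)
  have hder : ∀ a ∈ Set.uIcc (0 : ℝ) (1 - T), HasDerivAt
      (fun a => 1000 * A * (1 - a) ^ (-(1 / 1000) : ℝ)) (A * ((1 - a) ^ (-(1 / 1000) - 1 : ℝ))) a := by
    intro a ha
    rw [Set.uIcc_of_le (by linarith)] at ha
    have ha1 : 1 - a ≠ 0 := by
      have := ha.2
      intro h0
      linarith
    have h3 := ((hasDerivAt_id a).const_sub 1).rpow_const (p := (-(1 / 1000) : ℝ)) (Or.inl ha1)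
    refine (h3.const_mul (1000 * A)).congr_deriv ?_
    simp only [id]
    ring
  have hci : IntervalIntegrable (fun a => A * ((1 - a) ^ (-(1 / 1000) - 1 : ℝ))) volume 0
      (1 - T) := by
    refine ContinuousOn.intervalIntegrable ?_
    rw [Set.uIcc_of_le (by linarith)]
    refine continuousOn_const.mul ?_
    refine ContinuousOn.rpow_const (by fun_prop) fun a ha => Or.inl ?_
    have := ha.2
    intro h0
    linarith
  have h4 := intervalIntegral.integral_mono_on (show (0 : ℝ) ≤ 1 - T by linarith) hi hci h2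
  rw [intervalIntegral.integral_eq_sub_of_hasDerivAt hder hci] at h4
  refine h4.trans ?_
  have e1 : 1 - (1 - T) = T := by ring
  rw [e1, Real.mul_rpow hT.le hN0.le, hA]
  have h5 : 0 ≤ 1000 * (C * N * N ^ (-(1 / 1000) : ℝ)) * (1 - 0 : ℝ) ^ (-(1 / 1000) : ℝ) := by
    positivity
  have e2 : 1000 * (C * N * N ^ (-(1 / 1000) : ℝ)) * T ^ (-(1 / 1000) : ℝ) =
    1000 * C * N * (T ^ (-(1 / 1000) : ℝ) * N ^ (-(1 / 1000) : ℝ)) := by ring
  rw [← e2]
  linarith

end Vale.Agent.P146.H566.Ch
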