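import Vale.Agent.P146.H566.ChC

/-!
# P146: the window of decorrelation of the free energy (helper566)

From `Var F_n ≥ c n^(1/3)`: the correlation of the free energies of two disorders of correlation
`1 - T` is between `1 - C s^γ` and `C s^(-γ)`, `s = T n^(1/3)`, `γ = 1/1000`; the mean square overlap
is of the order `n^(-1/3)` at `T = c n^(-1/3)`; the Hermite levels of order `n^(1/3)` carry the
variance.
-/

open MeasureTheory ProbabilityTheory

namespace Vale.Agent.P146.H566.Ch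

open Vale.Agent.P157.Lv Vale.Agent.P146 Vale.Agent.P146.H425 Vale.Agent.P146.U
  Vale.Agent.P146.H605 Vale.Agent.P146.R2

variable {n : ℕ} {β T : ℝ}

/-- the order of the variance from below -/
def VL (β : ℝ) : Prop := ∃ c : ℝ, 0 < c ∧ ∀ n : ℕ, 2 ≤ n →
  c * (n : ℝ) ^ (1 / 3 : ℝ) ≤ Var[freeEnergy n β; disorder n]

lemma crossCov_zero (n : ℕ) (β : ℝ) (hn : 1 ≤ n) : crossCov n β 0 = 0 := by
  rw [crossCov_formula n β hn le_rfl zero_le_one]
  simp

/-- **The gradient at the scale `n^(-1/3)`.** -/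
theorem prof_low (hβ : 1 < β) (hV : VL β) : ∃ c : ℝ, 0 < c ∧ c ≤ 1 ∧ ∀ n : ℕ, 2 ≤ n → ∀ T : ℝ,
    0 ≤ T → T ≤ c * (n : ℝ) ^ (-(1 / 3) : ℝ) →
      c * (n : ℝ) ^ (2 / 3 : ℝ) ≤ prof n β (1 - T) := by
  obtain ⟨c1, hc1, hV⟩ := hV
  obtain ⟨C1, hC1, h1⟩ := near_all hβ
  obtain ⟨C2, hC2, h2⟩ := cov_all hβ
  -- the two ends of the window
  obtain ⟨s0, hs00, hs01, hs0⟩ : ∃ s0 : ℝ, 0 < s0 ∧ s0 ≤ 1 ∧
      C1 * s0 ^ (1 / 1000 : ℝ) ≤ c1 / 4 := by
    refine ⟨min 1 ((c1 / (4 * C1)) ^ 1000), by positivity, min_le_left _ _, ?_⟩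
    have h3 : (min 1 ((c1 / (4 * C1)) ^ 1000)) ^ (1 / 1000 : ℝ) ≤ c1 / (4 * C1) := by
      have h4 : (min 1 ((c1 / (4 * C1)) ^ 1000)) ^ (1 / 1000 : ℝ) ≤
          ((c1 / (4 * C1)) ^ 1000) ^ (1 / 1000 : ℝ) :=
        Real.rpow_le_rpow (by positivity) (min_le_right _ _) (by norm_num)
      have h5 : ((c1 / (4 * C1)) ^ 1000) ^ (1 / 1000 : ℝ) = c1 / (4 * C1) := by
        have := Real.pow_rpow_inv_natCast (x := c1 / (4 * C1)) (n := 1000) (by positivity)
          (by norm_num)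
        rw [one_div]
        exact_mod_cast this
      linarith
    have h6 := mul_le_mul_of_nonneg_left h3 hC1.le
    have e : C1 * (c1 / (4 * C1)) = c1 / 4 := by field_simp
    linarith
  obtain ⟨s1, hs11, hs1⟩ : ∃ s1 : ℝ, 1 ≤ s1 ∧ C2 * s1 ^ (-(1 / 1000) : ℝ) ≤ c1 / 4 := by
    obtain ⟨r, hr⟩ : ∃ r : ℝ, r = max 1 (4 * C2 / c1) := ⟨_, rfl⟩
    have hr1 : 1 ≤ r := by rw [hr]; exact le_max_left _ _
    have hr0 : 0 < r := by linarith
    refine ⟨r ^ 1000, one_le_pow₀ hr1, ?_⟩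
    have h5 : (r ^ 1000) ^ (1 / 1000 : ℝ) = r := by
      have := Real.pow_rpow_inv_natCast (x := r) (n := 1000) hr0.le (by norm_num)
      rw [one_div]
      exact_mod_cast this
    rw [Real.rpow_neg (by positivity), h5, ← div_eq_mul_inv, div_le_iff₀ hr0]
    have h6 : 4 * C2 / c1 ≤ r := by rw [hr]; exact le_max_right _ _
    rw [div_le_iff₀ hc1] at h6
    linarith
  refine ⟨min s0 (c1 / (2 * s1)), by positivity, (min_le_left _ _).trans hs01,
    fun n hn T hT0 hT1 => ?_⟩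
  have hn1 : 1 ≤ n := by omega
  have hnR : (1 : ℝ) ≤ n := by exact_mod_cast hn1
  have hn0 : (0 : ℝ) < n := by linarith
  obtain ⟨N, hN⟩ : ∃ N : ℝ, N = (n : ℝ) ^ (1 / 3 : ℝ) := ⟨_, rfl⟩
  have hN1 : 1 ≤ N := by rw [hN]; exact Real.one_le_rpow hnR (by norm_num)
  have hN0 : 0 < N := by linarith
  have hNi : (n : ℝ) ^ (-(1 / 3) : ℝ) = N⁻¹ := by rw [Real.rpow_neg hn0.le, ← hN]
  have hN2 : (n : ℝ) ^ (2 / 3 : ℝ) = N * N := by
    rw [hN, ← Real.rpow_add hn0]
    norm_num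
  have hVn := hV n hn
  have k1 := fun T h0 h1' => h1 n hn1 T h0 h1'
  have k2 := fun T h0 h1' => h2 n hn1 T h0 h1'
  rw [← hN] at hVn k1 k2
  rw [hNi] at hT1
  rw [hN2]
  obtain ⟨T0, hT0'⟩ : ∃ T0 : ℝ, T0 = s0 * N⁻¹ := ⟨_, rfl⟩
  have hT00 : 0 < T0 := by rw [hT0']; positivity
  have hNi1 : N⁻¹ ≤ 1 := inv_le_one_of_one_le₀ hN1
  have hT01 : T0 ≤ 1 := by
    rw [hT0']
    exact mul_le_one₀ hs01 (by positivity) hNi1
  have hTT0 : T ≤ T0 := hT1.trans (by
    rw [hT0']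
    exact mul_le_mul_of_nonneg_right (min_le_left _ _) (by positivity))
  have a1 : Var[freeEnergy n β; disorder n] - crossCov n β (1 - T0) ≤ c1 / 4 * N := by
    refine (k1 T0 hT00 hT01).trans ?_
    have e : T0 * N = s0 := by rw [hT0']; field_simp
    rw [e, mul_right_comm]
    exact mul_le_mul_of_nonneg_right hs0 hN0.le
  -- the far end
  have key : c1 / 2 * N ≤ s1 * N⁻¹ * prof n β (1 - T0) := by
    have hp0 := prof_nonneg n β hn1 (t := 1 - T0) (by linarith) (by linarith)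
    rcases le_or_gt (s1 * N⁻¹) 1 with hle | hgt
    · have hT10 : 0 < s1 * N⁻¹ := by positivity
      have a2 := k2 (s1 * N⁻¹) hT10 hle
      have e : s1 * N⁻¹ * N = s1 := by field_simp
      rw [e, mul_right_comm] at a2
      have a3 : crossCov n β (1 - s1 * N⁻¹) ≤ c1 / 4 * N :=
        a2.trans (mul_le_mul_of_nonneg_right hs1 hN0.le)
      have hle2 : T0 ≤ s1 * N⁻¹ := by
        rw [hT0']
        exact mul_le_mul_of_nonneg_right (hs01.trans hs11) (by positivity)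
      have a4 := crossCov_sub_le (n := n) (β := β) hn1 (s := 1 - s1 * N⁻¹) (t := 1 - T0)
        (by linarith) (by linarith) (by linarith)
      have a5 : (1 - T0 - (1 - s1 * N⁻¹)) * prof n β (1 - T0) ≤
          s1 * N⁻¹ * prof n β (1 - T0) :=
        mul_le_mul_of_nonneg_right (by linarith) hp0
      linarith
    · have a4 := crossCov_sub_le (n := n) (β := β) hn1 (s := 0) (t := 1 - T0)
        le_rfl (by linarith) (by linarith)
      rw [crossCov_zero n β hn1] at a4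
      have a5 : (1 - T0 - 0) * prof n β (1 - T0) ≤ s1 * N⁻¹ * prof n β (1 - T0) :=
        mul_le_mul_of_nonneg_right (by linarith) hp0
      have a6 : 0 ≤ c1 * N := by positivity
      linarith
  have a6 : c1 / 2 * N * N ≤ s1 * prof n β (1 - T0) := by
    have a7 := mul_le_mul_of_nonneg_right key hN0.le
    have e : s1 * N⁻¹ * prof n β (1 - T0) * N = s1 * prof n β (1 - T0) := by field_simp
    rwa [e] at a7
  have a7 : c1 / (2 * s1) * (N * N) ≤ prof n β (1 - T0) := by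
    have hs10 : 0 < s1 := by linarith
    have e : c1 / (2 * s1) * (N * N) = c1 / 2 * N * N / s1 := by field_simp
    rw [e, div_le_iff₀ hs10]
    linarith
  have a8 : prof n β (1 - T0) ≤ prof n β (1 - T) :=
    prof_mono n β hn1 (by linarith) (by linarith) (by linarith)
  have a9 : min s0 (c1 / (2 * s1)) * (N * N) ≤ c1 / (2 * s1) * (N * N) :=
    mul_le_mul_of_nonneg_right (min_le_right _ _) (by positivity)
  linarith

/-! ### Hermite levels -/

open Vale.Agent.P146.R3.H793 in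
/-- the low levels -/
lemma level_le (n : ℕ) (β : ℝ) {m : ℕ} (hm : 1 ≤ m) :
    levelVar n β m ≤ 2 * crossCov n β (1 - 1 / (2 * m)) := by
  have hmR : (1 : ℝ) ≤ m := by exact_mod_cast hm
  obtain ⟨t, ht⟩ : ∃ t : ℝ, t = 1 - 1 / (2 * m) := ⟨_, rfl⟩
  have h0 : (0 : ℝ) < 1 / (2 * m) := by positivity
  have h1 : 1 / (2 * (m : ℝ)) ≤ 1 / 2 := by
    rw [div_le_div_iff₀ (by positivity) (by norm_num)]
    linarith
  have ht0 : 0 ≤ t := by rw [ht]; linarith
  have ht1 : t ≤ 1 := by rw [ht]; linarith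
  have hs := crossCov_hasSum n β ht0 ht1
  rw [levelVar_eq, ← ht]
  have h2 : ∑ k ∈ Finset.range (m + 1), level n β k * t ^ k ≤ crossCov n β t :=
    sum_le_hasSum _ (fun k _ => mul_nonneg (level_nonneg n β k) (pow_nonneg ht0 k)) hs
  have h3 : (1 / 2 : ℝ) ≤ t ^ m := by
    have h4 := one_add_mul_le_pow (a := -(1 / (2 * (m : ℝ)))) (by linarith) m
    have e : 1 + -(1 / (2 * (m : ℝ))) = t := by rw [ht]; ring
    rw [e] at h4
    refine le_trans (le_of_eq ?_) h4
    field_simp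
    norm_num
  have h4 : ∑ k ∈ Finset.range (m + 1), level n β k ≤
      2 * ∑ k ∈ Finset.range (m + 1), level n β k * t ^ k := by
    rw [Finset.mul_sum]
    refine Finset.sum_le_sum fun k hk => ?_
    have hk' : k ≤ m := Nat.lt_succ_iff.1 (Finset.mem_range.1 hk)
    have h5 : (1 / 2 : ℝ) ≤ t ^ k := h3.trans (pow_le_pow_of_le_one ht0 ht1 hk')
    have h6 := mul_le_mul_of_nonneg_left h5 (level_nonneg n β k)
    linarith
  linarith

/-- the tail of a series and its generating function -/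
lemma tail_seq {a : ℕ → ℝ} (ha : ∀ k, 0 ≤ a k) {V K t : ℝ} (hV : HasSum a V)
    (hK : HasSum (fun k => a k * t ^ k) K) (ht0 : 0 ≤ t) (ht1 : t ≤ 1) {m : ℕ}
    (h3 : t ^ (m + 1) ≤ 1 / 2) :
    V - ∑ k ∈ Finset.range (m + 1), a k ≤ 2 * (V - K) := by
  have hd : HasSum (fun k => a k - a k * t ^ k) (V - K) := hV.sub hK
  have hnn : ∀ k, 0 ≤ a k - a k * t ^ k := fun k => by
    have h := mul_le_mul_of_nonneg_left (pow_le_one₀ ht0 ht1 (n := k)) (ha k)
    linarith
  have hsum1 : Summable a := hV.summable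
  have e1 : V - ∑ k ∈ Finset.range (m + 1), a k = ∑' k, a (k + (m + 1)) := by
    have := hsum1.sum_add_tsum_nat_add (m + 1)
    rw [hV.tsum_eq] at this
    linarith
  have e2 : ∑ k ∈ Finset.range (m + 1), (a k - a k * t ^ k) +
      ∑' k, (a (k + (m + 1)) - a (k + (m + 1)) * t ^ (k + (m + 1))) = V - K := by
    have := hd.summable.sum_add_tsum_nat_add (m + 1)
    rw [hd.tsum_eq] at this
    exact this
  have h8 : 0 ≤ ∑ k ∈ Finset.range (m + 1), (a k - a k * t ^ k) :=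
    Finset.sum_nonneg fun k _ => hnn k
  have hsum2 : Summable (fun k => a (k + (m + 1)) - a (k + (m + 1)) * t ^ (k + (m + 1))) :=
    (summable_nat_add_iff (f := fun k => a k - a k * t ^ k) (m + 1)).2 hd.summable
  have hsum3 : Summable (fun k => a (k + (m + 1))) := (summable_nat_add_iff (m + 1)).2 hsum1
  have h9 : ∑' k, a (k + (m + 1)) ≤
      ∑' k, 2 * (a (k + (m + 1)) - a (k + (m + 1)) * t ^ (k + (m + 1))) := by
    refine hsum3.tsum_le_tsum (fun k => ?_) (hsum2.mul_left 2)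
    have h10 : t ^ (k + (m + 1)) ≤ 1 / 2 :=
      (pow_le_pow_of_le_one ht0 ht1 (by omega)).trans h3
    have h11 := mul_le_mul_of_nonneg_left h10 (ha (k + (m + 1)))
    linarith
  rw [tsum_mul_left] at h9
  rw [e1]
  linarith

/-- `(1 - 1/m)^(m+1) ≤ 1/2` -/
lemma pow_half {m : ℕ} (hm : 1 ≤ m) : (1 - 1 / (m : ℝ)) ^ (m + 1) ≤ 1 / 2 := by
  have hmR : (1 : ℝ) ≤ m := by exact_mod_cast hm
  obtain ⟨t, ht⟩ : ∃ t : ℝ, t = 1 - 1 / (m : ℝ) := ⟨_, rfl⟩
  have h0 : (0 : ℝ) < 1 / m := by positivity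
  have h1 : 1 / (m : ℝ) ≤ 1 := by
    rw [div_le_one (by positivity)]
    exact hmR
  have ht0 : 0 ≤ t := by rw [ht]; linarith
  have ht1 : t ≤ 1 := by rw [ht]; linarith
  rw [← ht]
  have h4 : t ≤ Real.exp (-(1 / (m : ℝ))) := by
    have := Real.add_one_le_exp (-(1 / (m : ℝ)))
    rw [ht]
    linarith
  have h5 : t ^ m ≤ Real.exp (-1) := by
    refine (pow_le_pow_left₀ ht0 h4 m).trans (le_of_eq ?_)
    rw [← Real.exp_nat_mul]
    congr 1
    field_simp
  have h6 : Real.exp (-1) ≤ 1 / 2 := by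
    have h7 : (2 : ℝ) ≤ Real.exp 1 := by
      have := Real.add_one_le_exp (1 : ℝ)
      linarith
    rw [Real.exp_neg, inv_le_comm₀ (Real.exp_pos _) (by norm_num)]
    linarith
  have h7 : t ^ (m + 1) ≤ t ^ m := pow_le_pow_of_le_one ht0 ht1 (by omega)
  linarith

open Vale.Agent.P146.R3.H793 in
/-- the high levels -/
lemma level_ge (hn : 1 ≤ n) {m : ℕ} (hm : 1 ≤ m) :
    Var[freeEnergy n β; disorder n] - levelVar n β m ≤
      2 * (Var[freeEnergy n β; disorder n] - crossCov n β (1 - 1 / m)) := by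
  have hmR : (1 : ℝ) ≤ m := by exact_mod_cast hm
  have h1 : 1 / (m : ℝ) ≤ 1 := by
    rw [div_le_one (by positivity)]
    exact hmR
  have h0 : (0 : ℝ) < 1 / m := by positivity
  have hs := crossCov_hasSum n β (t := 1 - 1 / (m : ℝ)) (by linarith) (by linarith)
  have hs1 : HasSum (fun k => level n β k) Var[freeEnergy n β; disorder n] := by
    have h2 := crossCov_hasSum n β zero_le_one le_rfl
    rw [crossCov_one n β hn] at h2
    have e : (fun k => level n β k * (1 : ℝ) ^ k) = fun k => level n β k := by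
      funext k
      rw [one_pow, mul_one]
    rwa [e] at h2
  rw [levelVar_eq]
  exact tail_seq (level_nonneg n β) hs1 hs (by linarith) (by linarith) (pow_half hm)

end Vale.Agent.P146.H566.Ch
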