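import Vale.Agent.P146.H566.ChD
import Vale.Agent.P146.H605.Kolm

/-!
# P146: the window of decorrelation, final form (helper566)
-/

open MeasureTheory ProbabilityTheory

namespace Vale.Agent.P146.H566.Ch

open Vale.Agent.P157.Lv Vale.Agent.P146 Vale.Agent.P146.H425 Vale.Agent.P146.U
  Vale.Agent.P146.H605 Vale.Agent.P146.R2

variable {n : ℕ} {β T : ℝ}

/-- small balls -/
def SB (β : ℝ) : Prop := ∃ C : ℝ, 0 < C ∧ ∀ n : ℕ, 2 ≤ n → ∀ u : ℝ, 0 ≤ u → ∀ y : ℝ,
  (disorder n).real {g | |freeEnergy n β g - y| ≤ u} ≤ C * (1 + u) / (n : ℝ) ^ (1 / 6 : ℝ)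

/-- the correlation coefficient, both sides, and the overlap -/
theorem corr_all (hβ : 1 < β) (hV : VL β) : ∃ C : ℝ, 1 ≤ C ∧ ∀ n : ℕ, 2 ≤ n → ∀ T : ℝ,
    0 < T → T ≤ 1 →
    (1 - C * (T * (n : ℝ) ^ (1 / 3 : ℝ)) ^ (1 / 1000 : ℝ)) * Var[freeEnergy n β; disorder n] ≤
      crossCov n β (1 - T) ∧
    crossCov n β (1 - T) ≤ C * (T * (n : ℝ) ^ (1 / 3 : ℝ)) ^ (-(1 / 1000) : ℝ) *
      Var[freeEnergy n β; disorder n] ∧
    n * T * crossOverlap n β (1 - T) ≤ C * (n : ℝ) ^ (1 / 3 : ℝ) *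
      (T * (n : ℝ) ^ (1 / 3 : ℝ)) ^ (1 / 1000 : ℝ) ∧
    n * T * crossOverlap n β (1 - T) ≤ C * (n : ℝ) ^ (1 / 3 : ℝ) *
      (T * (n : ℝ) ^ (1 / 3 : ℝ)) ^ (-(1 / 1000) : ℝ) ∧
    (crossCov n β (1 - T) + β ^ 2 * (1 - T)) ≤
      C * (T * (n : ℝ) ^ (1 / 3 : ℝ)) ^ (-(1 / 1000) : ℝ) * Var[freeEnergy n β; disorder n] := by
  have hβ0 : 0 < β := by linarith
  obtain ⟨c, hc, hV⟩ := hV
  obtain ⟨C1, hC1, h1⟩ := near_all hβ
  obtain ⟨C2, hC2, h2⟩ := cov_all hβ
  obtain ⟨C3, hC3, h3⟩ := far_all hβ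
  obtain ⟨C, hC⟩ : ∃ C : ℝ, C = 1 + C1 / c + C2 / c + (2 / β ^ 2 * C1 + 1) +
    (2 / β ^ 2 * C3 + 1) + β ^ 2 / c := ⟨_, rfl⟩
  have p1 : 0 < C1 / c := by positivity
  have p2 : 0 < C2 / c := by positivity
  have p3 : 0 < 2 / β ^ 2 * C1 := by positivity
  have p4 : 0 < 2 / β ^ 2 * C3 := by positivity
  have p5 : 0 < β ^ 2 / c := by positivity
  refine ⟨C, by rw [hC]; linarith, fun n hn T hT hT1 => ?_⟩
  have hn1 : 1 ≤ n := by omega
  have hnR : (1 : ℝ) ≤ n := by exact_mod_cast hn1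
  have hn0 : (0 : ℝ) < n := by linarith
  obtain ⟨N, hN⟩ : ∃ N : ℝ, N = (n : ℝ) ^ (1 / 3 : ℝ) := ⟨_, rfl⟩
  have hN1 : 1 ≤ N := by rw [hN]; exact Real.one_le_rpow hnR (by norm_num)
  have hN0 : 0 < N := by linarith
  have hVn := hV n hn
  have k1 := h1 n hn1 T hT hT1
  have k2 := h2 n hn1 T hT hT1
  have k3 := h3 n hn1 T hT hT1
  rw [← hN] at hVn k1 k2 k3 ⊢
  obtain ⟨V, hVd⟩ : ∃ V, V = Var[freeEnergy n β; disorder n] := ⟨_, rfl⟩
  rw [← hVd] at hVn k1 ⊢
  have hTN : 0 < T * N := by positivity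
  have hV0 : 0 < V := lt_of_lt_of_le (by positivity) hVn
  obtain ⟨a, ha⟩ : ∃ a, a = (T * N) ^ (1 / 1000 : ℝ) := ⟨_, rfl⟩
  obtain ⟨d, hd⟩ : ∃ d, d = (T * N) ^ (-(1 / 1000) : ℝ) := ⟨_, rfl⟩
  have ha0 : 0 < a := by rw [ha]; positivity
  have hd0 : 0 < d := by rw [hd]; positivity
  rw [← ha] at k1 ⊢
  rw [← hd] at k2 k3 ⊢
  have hNV : N ≤ V / c := by rw [le_div_iff₀ hc]; linarith
  -- `T ≤ N a` and `T ≤ N d`, `1 ≤ N d`
  have q1 : T ≤ N * a := by
    have e1 : T ^ (1 / 1000 : ℝ) ≤ a := by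
      rw [ha]
      exact Real.rpow_le_rpow hT.le (le_mul_of_one_le_right hT.le hN1) (by norm_num)
    have e2 : T ^ (1 : ℝ) ≤ T ^ (1 / 1000 : ℝ) := pow_small hT hT1 (by norm_num)
    rw [Real.rpow_one] at e2
    have e3 : a ≤ N * a := le_mul_of_one_le_left ha0.le hN1
    linarith
  have q2 : 1 ≤ N * d := by
    have h7 : N ^ (-(1 / 1000) : ℝ) ≤ d := by
      rw [hd]
      exact Real.rpow_le_rpow_of_nonpos hTN (mul_le_of_le_one_left hN0.le hT1) (by norm_num)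
    have h8 : 1 ≤ N * N ^ (-(1 / 1000) : ℝ) := by
      nth_rewrite 1 [← Real.rpow_one N]
      rw [← Real.rpow_add hN0]
      exact Real.one_le_rpow hN1 (by norm_num)
    exact h8.trans (mul_le_mul_of_nonneg_left h7 hN0.le)
  have hover : n * T * crossOverlap n β (1 - T) = 2 / β ^ 2 * (T * prof n β (1 - T)) + T := by
    unfold prof
    field_simp
    ring
  have hpd := prof_le_diff (n := n) (β := β) hn1 hT.le hT1
  rw [← hVd] at hpd
  refine ⟨?_, ?_, ?_, ?_, ?_⟩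
  · have e : C1 * N * a ≤ C * a * V := by
      have e1 : C1 * N * a ≤ C1 * (V / c) * a :=
        mul_le_mul_of_nonneg_right (mul_le_mul_of_nonneg_left hNV hC1.le) ha0.le
      have e2 : C1 * (V / c) * a = C1 / c * (a * V) := by ring
      have e3 : C1 / c * (a * V) ≤ C * (a * V) :=
        mul_le_mul_of_nonneg_right (by rw [hC]; linarith) (by positivity)
      linarith
    linarith
  · have e1 : C2 * N * d ≤ C2 * (V / c) * d :=
      mul_le_mul_of_nonneg_right (mul_le_mul_of_nonneg_left hNV hC2.le) hd0.le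
    have e2 : C2 * (V / c) * d = C2 / c * (d * V) := by ring
    have e3 : C2 / c * (d * V) ≤ C * (d * V) :=
      mul_le_mul_of_nonneg_right (by rw [hC]; linarith) (by positivity)
    linarith
  · rw [hover]
    have e1 : 2 / β ^ 2 * (T * prof n β (1 - T)) ≤ 2 / β ^ 2 * (C1 * N * a) :=
      mul_le_mul_of_nonneg_left (by linarith) (by positivity)
    have e2 : 2 / β ^ 2 * (C1 * N * a) + N * a = (2 / β ^ 2 * C1 + 1) * (N * a) := by ring
    have e3 : (2 / β ^ 2 * C1 + 1) * (N * a) ≤ C * (N * a) :=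
      mul_le_mul_of_nonneg_right (by rw [hC]; linarith) (by positivity)
    linarith
  · rw [hover]
    have e1 : 2 / β ^ 2 * (T * prof n β (1 - T)) ≤ 2 / β ^ 2 * (C3 * N * d) :=
      mul_le_mul_of_nonneg_left (by linarith) (by positivity)
    have e2 : 2 / β ^ 2 * (C3 * N * d) + N * d = (2 / β ^ 2 * C3 + 1) * (N * d) := by ring
    have e3 : (2 / β ^ 2 * C3 + 1) * (N * d) ≤ C * (N * d) :=
      mul_le_mul_of_nonneg_right (by rw [hC]; linarith) (by positivity)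
    linarith
  · have e1 : C2 * N * d ≤ C2 * (V / c) * d :=
      mul_le_mul_of_nonneg_right (mul_le_mul_of_nonneg_left hNV hC2.le) hd0.le
    have e4 : β ^ 2 * (1 - T) ≤ β ^ 2 / c * (d * V) := by
      have e5 : β ^ 2 * (1 - T) ≤ β ^ 2 * (N * d) :=
        mul_le_mul_of_nonneg_left (by linarith) (by positivity)
      have e6 : β ^ 2 * (N * d) ≤ β ^ 2 * (V / c * d) :=
        mul_le_mul_of_nonneg_left (mul_le_mul_of_nonneg_right hNV hd0.le) (by positivity)
      have e7 : β ^ 2 * (V / c * d) = β ^ 2 / c * (d * V) := by ring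
      linarith
    have e2 : C2 * (V / c) * d + β ^ 2 / c * (d * V) = (C2 / c + β ^ 2 / c) * (d * V) := by ring
    have e3 : (C2 / c + β ^ 2 / c) * (d * V) ≤ C * (d * V) :=
      mul_le_mul_of_nonneg_right (by rw [hC]; linarith) (by positivity)
    linarith

/-- **The Hermite levels of order `n^(1/3)`.** -/
theorem levels_all (hβ : 1 < β) (hV : VL β) : ∃ C : ℝ, 1 ≤ C ∧ ∀ n : ℕ, 2 ≤ n → ∀ m : ℕ,
    1 ≤ m → levelVar n β m ≤ C * (m / (n : ℝ) ^ (1 / 3 : ℝ)) ^ (1 / 1000 : ℝ) *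
        Var[freeEnergy n β; disorder n] ∧
      Var[freeEnergy n β; disorder n] - levelVar n β m ≤
        C * (m / (n : ℝ) ^ (1 / 3 : ℝ)) ^ (-(1 / 1000) : ℝ) *
          Var[freeEnergy n β; disorder n] := by
  obtain ⟨C, hC, h⟩ := corr_all hβ hV
  refine ⟨4 * C, by linarith, fun n hn m hm => ?_⟩
  have hn1 : 1 ≤ n := by omega
  have hnR : (1 : ℝ) ≤ n := by exact_mod_cast hn1
  have hmR : (1 : ℝ) ≤ m := by exact_mod_cast hm
  have hm0 : (0 : ℝ) < m := by linarith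
  have hn0 : (0 : ℝ) < n := by linarith
  obtain ⟨N, hN⟩ : ∃ N : ℝ, N = (n : ℝ) ^ (1 / 3 : ℝ) := ⟨_, rfl⟩
  have hN0 : 0 < N := by rw [hN]; positivity
  have hV0 : 0 ≤ Var[freeEnergy n β; disorder n] := variance_nonneg _ _
  have k1 := h n hn (1 / (2 * m)) (by positivity) (by
    rw [div_le_one (by positivity)]
    linarith)
  have k2 := h n hn (1 / m) (by positivity) (by
    rw [div_le_one (by positivity)]
    exact hmR)
  have l1 := level_le n β hm
  have l2 := level_ge (n := n) (β := β) hn1 hm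
  rw [← hN] at k1 k2 ⊢
  have hr0 : 0 < (m : ℝ) / N := by positivity
  constructor
  · have e1 : (1 / (2 * (m : ℝ)) * N) ^ (-(1 / 1000) : ℝ) ≤ 2 * (m / N) ^ (1 / 1000 : ℝ) := by
      have e2 : 1 / (2 * (m : ℝ)) * N = (2 * (m / N))⁻¹ := by field_simp
      rw [e2, Real.inv_rpow (by positivity), ← Real.rpow_neg (by positivity), neg_neg,
        Real.mul_rpow (by norm_num) hr0.le]
      refine mul_le_mul_of_nonneg_right ?_ (by positivity)
      have e3 : (2 : ℝ) ^ (1 / 1000 : ℝ) ≤ (2 : ℝ) ^ (1 : ℝ) :=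
        Real.rpow_le_rpow_of_exponent_le (by norm_num) (by norm_num)
      rwa [Real.rpow_one] at e3
    have e4 := k1.2.1
    have e5 : C * (1 / (2 * (m : ℝ)) * N) ^ (-(1 / 1000) : ℝ) *
        Var[freeEnergy n β; disorder n] ≤ C * (2 * (m / N) ^ (1 / 1000 : ℝ)) *
        Var[freeEnergy n β; disorder n] :=
      mul_le_mul_of_nonneg_right (mul_le_mul_of_nonneg_left e1 (by linarith)) hV0
    have e6 : 4 * C * (m / N) ^ (1 / 1000 : ℝ) * Var[freeEnergy n β; disorder n] =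
      2 * (C * (2 * (m / N) ^ (1 / 1000 : ℝ)) * Var[freeEnergy n β; disorder n]) := by ring
    rw [e6]
    linarith
  · have e1 : (1 / (m : ℝ) * N) ^ (1 / 1000 : ℝ) = (m / N) ^ (-(1 / 1000) : ℝ) := by
      have e2 : 1 / (m : ℝ) * N = (m / N)⁻¹ := by field_simp
      rw [e2, Real.inv_rpow (by positivity), ← Real.rpow_neg (by positivity)]
    have e4 := k2.1
    rw [e1] at e4
    have e5 : 0 ≤ C * (m / N) ^ (-(1 / 1000) : ℝ) * Var[freeEnergy n β; disorder n] := by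
      positivity
    nlinarith

/-- **The conditional law.** -/
theorem cond_all (hβ : 1 < β) (hV : VL β) (hS : SB β) : ∃ C : ℝ, 1 ≤ C ∧ ∀ n : ℕ, 2 ≤ n →
    ∀ T : ℝ, 0 < T → T ≤ 1 → ∀ x : ℝ,
      ∫ z, ((disorder n).real {g | freeEnergy n β (mixed n (1 - T) z g) ≤ x} -
        (disorder n).real {g | freeEnergy n β g ≤ x}) ^ 2 ∂(disorder n) ≤
          C * (T * (n : ℝ) ^ (1 / 3 : ℝ)) ^ (-(1 / 3000) : ℝ) := by
  obtain ⟨C, hC, h⟩ := corr_all hβ hV
  obtain ⟨C2, hC2, h2⟩ := H607.final hβ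
  obtain ⟨C3, hC3, h3⟩ := hS
  refine ⟨1 + 3 * (C * C2) + 12 * C3, by nlinarith [mul_pos (show 0 < C by linarith) hC2],
    fun n hn T hT hT1 x => ?_⟩
  have hn1 : 1 ≤ n := by omega
  have hnR : (1 : ℝ) ≤ n := by exact_mod_cast hn1
  have hn0 : (0 : ℝ) < n := by linarith
  obtain ⟨N, hN⟩ : ∃ N : ℝ, N = (n : ℝ) ^ (1 / 3 : ℝ) := ⟨_, rfl⟩
  obtain ⟨M, hM⟩ : ∃ M : ℝ, M = (n : ℝ) ^ (1 / 6 : ℝ) := ⟨_, rfl⟩
  have hN1 : 1 ≤ N := by rw [hN]; exact Real.one_le_rpow hnR (by norm_num)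
  have hN0 : 0 < N := by linarith
  have hM1 : 1 ≤ M := by rw [hM]; exact Real.one_le_rpow hnR (by norm_num)
  have hM0 : 0 < M := by linarith
  have hMN : M ^ 2 = N := by
    rw [hM, hN, ← Real.rpow_natCast, ← Real.rpow_mul hn0.le]
    norm_num
  have k1 := (h n hn T hT hT1).2.2.2.2
  have k2 := (h2 n hn1).1
  have k3 := h3 n hn
  rw [← hN] at k1 k2 ⊢
  rw [← hM] at k3
  have hTN : 0 < T * N := by positivity
  obtain ⟨q, hq⟩ : ∃ q, q = (T * N) ^ (-(1 / 3000) : ℝ) := ⟨_, rfl⟩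
  have hq0 : 0 < q := by rw [hq]; positivity
  have hq3 : (T * N) ^ (-(1 / 1000) : ℝ) = q ^ 3 := by
    rw [hq, ← Real.rpow_natCast, ← Real.rpow_mul hTN.le]
    norm_num
  rw [← hq]
  rw [hq3] at k1
  -- the trivial range
  have htriv : ∫ z, ((disorder n).real {g | freeEnergy n β (mixed n (1 - T) z g) ≤ x} -
        (disorder n).real {g | freeEnergy n β g ≤ x}) ^ 2 ∂(disorder n) ≤ 1 := by
    have hpr : IsProbabilityMeasure (disorder n) := by unfold disorder; infer_instance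
    have hb : ∀ z, ((disorder n).real {g | freeEnergy n β (mixed n (1 - T) z g) ≤ x} -
        (disorder n).real {g | freeEnergy n β g ≤ x}) ^ 2 ≤ 1 := by
      intro z
      have a1 : (disorder n).real {g | freeEnergy n β (mixed n (1 - T) z g) ≤ x} ≤ 1 :=
        measureReal_le_one
      have a2 : (disorder n).real {g | freeEnergy n β g ≤ x} ≤ 1 := measureReal_le_one
      have a3 : 0 ≤ (disorder n).real {g | freeEnergy n β (mixed n (1 - T) z g) ≤ x} :=
        measureReal_nonneg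
      have a4 : 0 ≤ (disorder n).real {g | freeEnergy n β g ≤ x} := measureReal_nonneg
      rw [sq_le_one_iff_abs_le_one, abs_le]
      constructor <;> linarith
    by_cases hi : Integrable (fun z =>
        ((disorder n).real {g | freeEnergy n β (mixed n (1 - T) z g) ≤ x} -
        (disorder n).real {g | freeEnergy n β g ≤ x}) ^ 2) (disorder n)
    · have := integral_mono hi (integrable_const (1 : ℝ)) hb
      simpa using this
    · rw [integral_undef hi]
      norm_num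
  have hCC : 0 < C * C2 := by positivity
  rcases le_or_gt 1 (6 * (2 * C3 * q)) with hbig | hsmall
  · refine htriv.trans (hbig.trans ?_)
    have : 0 ≤ (1 + 3 * (C * C2)) * q := by positivity
    linarith
  -- the main range
  have hNq : 1 ≤ N * q ^ 3 := by
    have h7 : N ^ (-(1 / 1000) : ℝ) ≤ q ^ 3 := by
      rw [← hq3]
      exact Real.rpow_le_rpow_of_nonpos hTN (mul_le_of_le_one_left hN0.le hT1) (by norm_num)
    have h8 : 1 ≤ N * N ^ (-(1 / 1000) : ℝ) := by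
      nth_rewrite 1 [← Real.rpow_one N]
      rw [← Real.rpow_add hN0]
      exact Real.one_le_rpow hN1 (by norm_num)
    exact h8.trans (mul_le_mul_of_nonneg_left h7 hN0.le)
  have hMq : 1 ≤ M * q := by
    have h7 : N ^ (-(1 / 3000) : ℝ) ≤ q := by
      rw [hq]
      exact Real.rpow_le_rpow_of_nonpos hTN (mul_le_of_le_one_left hN0.le hT1) (by norm_num)
    have h8 : 1 ≤ M * N ^ (-(1 / 3000) : ℝ) := by
      rw [← hMN, ← Real.rpow_natCast, ← Real.rpow_mul hM0.le]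
      nth_rewrite 1 [← Real.rpow_one M]
      rw [← Real.rpow_add hM0]
      exact Real.one_le_rpow hM1 (by norm_num)
    exact h8.trans (mul_le_mul_of_nonneg_left h7 hM0.le)
  obtain ⟨w, hw⟩ : ∃ w, w = M * q := ⟨_, rfl⟩
  have hw0 : 0 < w := by rw [hw]; positivity
  have hε : ∀ y : ℝ, (disorder n).real {g | |freeEnergy n β g - y| ≤ w} ≤ 2 * C3 * q := by
    intro y
    refine (k3 w hw0.le y).trans ?_
    rw [div_le_iff₀ hM0]
    have e : 2 * C3 * q * M = C3 * (2 * w) := by rw [hw]; ring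
    rw [e]
    exact mul_le_mul_of_nonneg_left (by linarith) hC3.le
  have h5 := cdf_cond (freeEnergy_dom n β) (t := 1 - T) (by linarith) (by linarith) (w := w)
    (ε := 2 * C3 * q) (K := crossCov n β (1 - T) + β ^ 2 * (1 - T)) hw0
    (fun φ hφ => lip_var n β hn1 hφ (by linarith) (by linarith)) hε (by linarith) x
  have h6 : (crossCov n β (1 - T) + β ^ 2 * (1 - T)) / w ^ 2 ≤ C * C2 * q := by
    rw [div_le_iff₀ (by positivity)]
    have e : C * C2 * q * w ^ 2 = C * q ^ 3 * (C2 * N) := by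
      rw [hw, ← hMN]
      ring
    rw [e]
    exact k1.trans (mul_le_mul_of_nonneg_left k2 (by positivity))
  have h7 : ∫ z, ((disorder n).real {g | freeEnergy n β (mixed n (1 - T) z g) ≤ x} -
        (disorder n).real {g | freeEnergy n β g ≤ x}) ^ 2 ∂(disorder n) ≤
      3 * ((crossCov n β (1 - T) + β ^ 2 * (1 - T)) / w ^ 2) + 6 * (2 * C3 * q) := h5
  linarith

end Vale.Agent.P146.H566.Ch
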