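import Vale.Agent.P146.H509.LawAll
import Vale.Agent.P146.H196.UnionB
import Vale.Agent.P146.H762.SkewD

/-!
# P146, two-sided order: the two library inputs of the law part
-/

open MeasureTheory ProbabilityTheory Filter Topology

namespace Vale.Agent.P146.H566

open Vale.Agent.P146 Vale.Agent.P146.H509
open Vale.Agent.P146.H196 (meanF sdF)

variable {β : ℝ}

theorem limD (hβ : 1 < β) : LimD β := by
  intro N hN
  obtain ⟨φ, p, h1, h2, h3, h4, -, -, -, -, -, -, h5⟩ := H196.Un.limit_all hβ hN
  exact ⟨φ, p, h1, h2, h3, h4, h5⟩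

theorem gC (β : ℝ) : GC β := fun n hn => H762.gauss_compare n (by omega) β

end Vale.Agent.P146.H566
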