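import Vale.Agent.P146.H566.FinE
import Vale.Agent.P146.H566.FinL

/-!
# P146, two-sided order, part F: the assembly
-/

open MeasureTheory ProbabilityTheory Filter Topology

namespace Vale.Agent.P146.H566

open Vale.Agent.P146 Vale.Agent.P146.H605 Vale.Agent.P146.H509 Vale.Agent.P146.U.H607
open Vale.Agent.P146.H196 (meanF sdF)

variable {β : ℝ}

theorem mgU (hβ : 1 < β) : ∃ D : ℝ, 0 < D ∧ MgU β D := by
  obtain ⟨D, hD, h⟩ := final hβ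
  refine ⟨D, hD, fun n hn => ?_⟩
  obtain ⟨h1, h2, h3, -⟩ := h n hn
  exact ⟨h1, h2, h3⟩

theorem mgL (hβ : 1 < β) (h : LE β) : ∃ c K : ℝ, 0 < c ∧ MgL β c K := by
  obtain ⟨c₂, hc₂, hl⟩ := var_low hβ h
  obtain ⟨c₁, K, n0, hc₁, hK, hL⟩ := h
  refine ⟨min c₁ c₂, K, lt_min hc₁ hc₂, max n0 2, fun n hn => ⟨?_, fun x hx hx1 => ?_⟩⟩
  · exact (mul_le_mul_of_nonneg_right (min_le_right _ _) (by positivity)).trans
      (hl n ((le_max_right _ _).trans hn))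
  · have h2 : 2 ≤ n := (le_max_right _ _).trans hn
    have hnR : (1 : ℝ) ≤ n := by exact_mod_cast (by omega : 1 ≤ n)
    have hx2 : x ≤ 1 := hx1.trans (Real.rpow_le_one_of_one_le_of_nonpos hnR (by norm_num))
    have hx0 : 0 ≤ x := le_trans (by positivity) hx
    exact (Real.exp_le_exp.2 (mul_le_mul_of_nonneg_right (min_le_left _ _) (by positivity))).trans
      (hL n ((le_max_left _ _).trans hn) x hx hx2)

/-- **The law part.** -/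
theorem law_part (hβ : 1 < β) (h : LE β) :
    (∀ φ : ℕ → ℕ, StrictMono φ → ∃ ψ : ℕ → ℕ, StrictMono ψ ∧ ∃ ν : ProbabilityMeasure ℝ,
      Tendsto (lawY β ∘ φ ∘ ψ) atTop (𝓝 ν)) ∧
    ∃ c C : ℝ, 0 < c ∧ 0 < C ∧ ∀ φ : ℕ → ℕ, Tendsto φ atTop atTop → ∀ ν : ProbabilityMeasure ℝ,
      Tendsto (lawY β ∘ φ) atTop (𝓝 ν) →
      ∫ y, y ∂(ν : Measure ℝ) = 0 ∧
      c ≤ ∫ y, y ^ 2 ∂(ν : Measure ℝ) ∧ ∫ y, y ^ 2 ∂(ν : Measure ℝ) ≤ C ∧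
      0 ≤ ∫ y, y ^ 3 ∂(ν : Measure ℝ) ∧
      (∃ p : ℝ → ℝ, (∀ x, 0 ≤ p x ∧ p x ≤ C) ∧
        (∀ s t : ℝ, 0 < s → 0 < t → s + t = 1 → ∀ x y : ℝ,
          p x ^ s * p y ^ t ≤ p (s * x + t * y)) ∧
        (ν : Measure ℝ) = volume.withDensity fun x => ENNReal.ofReal (p x)) ∧
      (∀ ξ : ℝ, Integrable (fun y => Real.exp (ξ * y)) (ν : Measure ℝ)) ∧
      (∀ ξ : ℝ, 0 ≤ ξ →
        ∫ y, Real.exp (-ξ * y) ∂(ν : Measure ℝ) ≤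
          Real.exp (ξ ^ 2 / 2 * ∫ y, y ^ 2 ∂(ν : Measure ℝ)) ∧
        Real.exp (ξ ^ 2 / 2 * ∫ y, y ^ 2 ∂(ν : Measure ℝ)) ≤
          ∫ y, Real.exp (ξ * y) ∂(ν : Measure ℝ)) ∧
      (∀ ξ : ℝ, C ≤ ξ → Real.exp (c * ξ ^ 6) ≤ ∫ y, Real.exp (ξ * y) ∂(ν : Measure ℝ) ∧
        ∫ y, Real.exp (ξ * y) ∂(ν : Measure ℝ) ≤ Real.exp (C * ξ ^ 6)) ∧
      (∀ u : ℝ, 0 ≤ u → (ν : Measure ℝ).real (Set.Iic (-u)) ≤
        Real.exp (-(u ^ 2 / (2 * ∫ y, y ^ 2 ∂(ν : Measure ℝ))))) ∧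
      (∀ t : ℝ, C ≤ t → Real.exp (-(C * t ^ (6 / 5 : ℝ))) ≤ (ν : Measure ℝ).real (Set.Ici t) ∧
        (ν : Measure ℝ).real (Set.Ici t) ≤ Real.exp (-(c * t ^ (6 / 5 : ℝ)))) ∧
      ∀ (a : ℝ) (w : NNReal), (ν : Measure ℝ) ≠ gaussianReal a w := by
  obtain ⟨D, hD, hU⟩ := mgU hβ
  obtain ⟨c₁, K, hc₁, hL⟩ := mgL hβ h
  obtain ⟨h1, c₂, C₂, t₀, hc₂, hC₂, ht₀, H⟩ := law_all hD hc₁ hU hL (gC β) (limD hβ)
  refine ⟨h1, min c₁ c₂, max (max (max D (145 / √c₁)) (max K 1)) (max C₂ t₀),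
    lt_min hc₁ hc₂, lt_of_lt_of_le ht₀ ((le_max_right _ _).trans (le_max_right _ _)),
    fun φ hφ ν hν => ?_⟩
  obtain ⟨p1, p2, p3, p4, ⟨p, q1, q2, q3⟩, p6, p7, p8, p9, p10, p11⟩ := H φ hφ ν hν
  have k1 : D ≤ max (max (max D (145 / √c₁)) (max K 1)) (max C₂ t₀) :=
    (le_max_left _ _).trans ((le_max_left _ _).trans (le_max_left _ _))
  have k2 : 145 / √c₁ ≤ max (max (max D (145 / √c₁)) (max K 1)) (max C₂ t₀) :=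
    (le_max_right _ _).trans ((le_max_left _ _).trans (le_max_left _ _))
  have k3 : max K 1 ≤ max (max (max D (145 / √c₁)) (max K 1)) (max C₂ t₀) :=
    (le_max_right _ _).trans (le_max_left _ _)
  have k4 : C₂ ≤ max (max (max D (145 / √c₁)) (max K 1)) (max C₂ t₀) :=
    (le_max_left _ _).trans (le_max_right _ _)
  have k5 : t₀ ≤ max (max (max D (145 / √c₁)) (max K 1)) (max C₂ t₀) :=
    (le_max_right _ _).trans (le_max_right _ _)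
  have s6 : ∀ ξ : ℝ, 0 ≤ ξ ^ 6 := fun ξ => by
    rw [show ξ ^ 6 = (ξ ^ 3) ^ 2 by ring]
    exact sq_nonneg _
  refine ⟨p1, (min_le_left _ _).trans p2, p3.trans k1, p4,
    ⟨p, fun x => ⟨(q1 x).1, (q1 x).2.trans k2⟩, q2, q3⟩, p6, p7, fun ξ hξ => ?_, p8,
    fun t ht => ?_, p11⟩
  · obtain ⟨r1, r2⟩ := p9 ξ (k3.trans hξ)
    exact ⟨(Real.exp_le_exp.2 (mul_le_mul_of_nonneg_right (min_le_left _ _) (s6 ξ))).trans r1,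
      r2.trans (Real.exp_le_exp.2 (mul_le_mul_of_nonneg_right k1 (s6 ξ)))⟩
  · obtain ⟨r1, r2⟩ := p10 t (k5.trans ht)
    have ht0 : 0 ≤ t := ht₀.le.trans (k5.trans ht)
    have h6 : 0 ≤ t ^ (6 / 5 : ℝ) := by positivity
    exact ⟨(Real.exp_le_exp.2 (neg_le_neg (mul_le_mul_of_nonneg_right k4 h6))).trans r1,
      r2.trans (Real.exp_le_exp.2 (neg_le_neg
        (mul_le_mul_of_nonneg_right (min_le_right _ _) h6)))⟩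

/-- **The two-sided order, all conclusions, from the lower half.** -/
theorem two_sided {b : ℝ} (hb : 1 < b) (h : LE b) :
    (∃ c C : ℝ, 0 < c ∧ 0 < C ∧ ∀ n : ℕ, 2 ≤ n →
      -- the variance
      (c * (n : ℝ) ^ (1 / 3 : ℝ) ≤ Var[freeEnergy n b; disorder n] ∧
        Var[freeEnergy n b; disorder n] ≤ C * (n : ℝ) ^ (1 / 3 : ℝ)) ∧
      -- both sides, with probability bounded below
      (c ≤ (disorder n).real {g | meanF n b + c * (n : ℝ) ^ (1 / 6 : ℝ) ≤ freeEnergy n b g} ∧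
        c ≤ (disorder n).real {g | freeEnergy n b g ≤ meanF n b - c * (n : ℝ) ^ (1 / 6 : ℝ)}) ∧
      -- small balls
      (∀ u : ℝ, 0 ≤ u → ∀ y : ℝ, (disorder n).real {g | |freeEnergy n b g - y| ≤ u} ≤
        C * (1 + u) / (n : ℝ) ^ (1 / 6 : ℝ)) ∧
      -- the exponential moments, lower bounds
      ((∀ x : ℝ, 0 ≤ x → Real.exp (c * ((n : ℝ) ^ (1 / 3 : ℝ) * x ^ 2)) ≤
          ∫ g, Real.exp (x * (freeEnergy n b g - meanF n b)) ∂(disorder n)) ∧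
        ∀ x : ℝ, C * (n : ℝ) ^ (-(1 / 6) : ℝ) ≤ x → x ≤ 1 → Real.exp (c * (n * x ^ 6)) ≤
          ∫ g, Real.exp (x * (freeEnergy n b g - meanF n b)) ∂(disorder n)) ∧
      -- the right tail, lower bound
      (∀ u : ℝ, C ≤ u → u ≤ c * (n : ℝ) ^ (5 / 6 : ℝ) → Real.exp (-(C * u ^ (6 / 5 : ℝ))) ≤
        (disorder n).real {g | meanF n b + u * (n : ℝ) ^ (1 / 6 : ℝ) ≤ freeEnergy n b g}) ∧
      -- the moments, lower bounds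
      ((∀ p : ℝ, 1 ≤ p → p ≤ c * n → (c * (p ^ (5 / 6 : ℝ) * (n : ℝ) ^ (1 / 6 : ℝ))) ^ p ≤
          ∫ g, (max (freeEnergy n b g - meanF n b) 0) ^ p ∂(disorder n)) ∧
        ∀ p : ℝ, 0 < p → c * (c * (n : ℝ) ^ (1 / 6 : ℝ)) ^ p ≤
          ∫ g, (max (meanF n b - freeEnergy n b g) 0) ^ p ∂(disorder n) ∧
          c * (c * (n : ℝ) ^ (1 / 6 : ℝ)) ^ p ≤
          ∫ g, (max (freeEnergy n b g - meanF n b) 0) ^ p ∂(disorder n)) ∧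
      -- chaos, lower bound
      (∃ t : ℝ, 0 ≤ t ∧ t < 1 ∧
        c * (n : ℝ) ^ (1 / 3 : ℝ) / Real.log n ≤ n * (1 - t) * crossOverlap n b t) ∧
      -- the matching upper bounds: exponential moments
      (∀ x : ℝ, x ≤ (n : ℝ) ^ (-(1 / 6) : ℝ) →
        ∫ g, Real.exp (x * (freeEnergy n b g - meanF n b)) ∂(disorder n) ≤
          Real.exp (C * ((n : ℝ) ^ (1 / 3 : ℝ) * x ^ 2))) ∧
      (∀ x : ℝ, (n : ℝ) ^ (-(1 / 6) : ℝ) ≤ x → x ≤ 1 →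
        ∫ g, Real.exp (x * (freeEnergy n b g - meanF n b)) ∂(disorder n) ≤
          Real.exp (C * (n * x ^ 6))) ∧
      -- tails
      (∀ u : ℝ, 0 ≤ u →
        (disorder n).real {g | freeEnergy n b g ≤ meanF n b - u * (n : ℝ) ^ (1 / 6 : ℝ)} ≤
          Real.exp (-(c * u ^ 2)) ∧
        (disorder n).real {g | meanF n b + u * (n : ℝ) ^ (1 / 6 : ℝ) ≤ freeEnergy n b g} ≤
          Real.exp (-(c * min (u ^ 2) (u ^ (6 / 5 : ℝ))))) ∧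
      -- moments
      (∀ p : ℝ, 1 ≤ p →
        ∫ g, |freeEnergy n b g - meanF n b| ^ p ∂(disorder n) ≤
          (C * (p ^ (5 / 6 : ℝ) * (n : ℝ) ^ (1 / 6 : ℝ))) ^ p ∧
        ∫ g, (max (meanF n b - freeEnergy n b g) 0) ^ p ∂(disorder n) ≤
          (C * (p ^ (1 / 2 : ℝ) * (n : ℝ) ^ (1 / 6 : ℝ))) ^ p) ∧
      -- chaos
      (∀ t : ℝ, 0 ≤ t → t < 1 →
        n * (1 - t) * crossOverlap n b t ≤ C * (n : ℝ) ^ (1 / 3 : ℝ))) ∧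
    -- the limit laws of `(F_n - E F_n) / n ^ (1 / 6)`
    (∀ φ : ℕ → ℕ, StrictMono φ → ∃ ψ : ℕ → ℕ, StrictMono ψ ∧ ∃ ν : ProbabilityMeasure ℝ,
      Tendsto (lawY b ∘ φ ∘ ψ) atTop (𝓝 ν)) ∧
    ∃ c C : ℝ, 0 < c ∧ 0 < C ∧ ∀ φ : ℕ → ℕ, Tendsto φ atTop atTop → ∀ ν : ProbabilityMeasure ℝ,
      Tendsto (lawY b ∘ φ) atTop (𝓝 ν) →
      ∫ y, y ∂(ν : Measure ℝ) = 0 ∧
      c ≤ ∫ y, y ^ 2 ∂(ν : Measure ℝ) ∧ ∫ y, y ^ 2 ∂(ν : Measure ℝ) ≤ C ∧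
      0 ≤ ∫ y, y ^ 3 ∂(ν : Measure ℝ) ∧
      (∃ p : ℝ → ℝ, (∀ x, 0 ≤ p x ∧ p x ≤ C) ∧
        (∀ s t : ℝ, 0 < s → 0 < t → s + t = 1 → ∀ x y : ℝ,
          p x ^ s * p y ^ t ≤ p (s * x + t * y)) ∧
        (ν : Measure ℝ) = volume.withDensity fun x => ENNReal.ofReal (p x)) ∧
      (∀ ξ : ℝ, Integrable (fun y => Real.exp (ξ * y)) (ν : Measure ℝ)) ∧
      (∀ ξ : ℝ, 0 ≤ ξ →
        ∫ y, Real.exp (-ξ * y) ∂(ν : Measure ℝ) ≤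
          Real.exp (ξ ^ 2 / 2 * ∫ y, y ^ 2 ∂(ν : Measure ℝ)) ∧
        Real.exp (ξ ^ 2 / 2 * ∫ y, y ^ 2 ∂(ν : Measure ℝ)) ≤
          ∫ y, Real.exp (ξ * y) ∂(ν : Measure ℝ)) ∧
      (∀ ξ : ℝ, C ≤ ξ → Real.exp (c * ξ ^ 6) ≤ ∫ y, Real.exp (ξ * y) ∂(ν : Measure ℝ) ∧
        ∫ y, Real.exp (ξ * y) ∂(ν : Measure ℝ) ≤ Real.exp (C * ξ ^ 6)) ∧
      (∀ u : ℝ, 0 ≤ u → (ν : Measure ℝ).real (Set.Iic (-u)) ≤
        Real.exp (-(u ^ 2 / (2 * ∫ y, y ^ 2 ∂(ν : Measure ℝ))))) ∧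
      (∀ t : ℝ, C ≤ t → Real.exp (-(C * t ^ (6 / 5 : ℝ))) ≤ (ν : Measure ℝ).real (Set.Ici t) ∧
        (ν : Measure ℝ).real (Set.Ici t) ≤ Real.exp (-(c * t ^ (6 / 5 : ℝ)))) ∧
      ∀ (a : ℝ) (w : NNReal), (ν : Measure ℝ) ≠ gaussianReal a w := by
  refine ⟨?_, (law_part hb h).1, (law_part hb h).2⟩
  have e1 := ((ev_var hb h).and ((ev_both hb h).and ((ev_ball hb h).and
    ((ev_low hb h).and ((ev_tail hb h).and ((ev_mom hb h).and ((ev_chaos hb h).and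
      (ev_up hb))))))))
  obtain ⟨c, C, hc, hC, H⟩ := e1.ex
  obtain ⟨k1, k2, k3, k4, k5, k6, k7, k8⟩ := H
  refine ⟨c, C, hc, hC, fun n hn => ?_⟩
  exact ⟨k1 n hn, k2 n hn, k3 n hn, k4 n hn, k5 n hn, k6 n hn, k7 n hn, k8 n hn⟩

end Vale.Agent.P146.H566
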