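import Vale.Agent.P146.H566.ChE
import Vale.Agent.P146.H566.FinF

/-!
# P146: the window of decorrelation, one statement (helper566)
-/

open MeasureTheory ProbabilityTheory

namespace Vale.Agent.P146.H566.Ch

open Vale.Agent.P157.Lv Vale.Agent.P146 Vale.Agent.P146.H425 Vale.Agent.P146.U
  Vale.Agent.P146.H605 Vale.Agent.P146.R2

variable {n : ℕ} {β T : ℝ}

theorem vl_of (hβ : 1 < β) (h : LE β) : VL β := by
  obtain ⟨⟨c, C, hc, -, H⟩, -⟩ := two_sided hβ h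
  exact ⟨c, hc, fun n hn => (H n hn).1.1⟩

theorem sb_of (hβ : 1 < β) (h : LE β) : SB β := by
  obtain ⟨⟨c, C, -, hC, H⟩, -⟩ := two_sided hβ h
  exact ⟨C, hC, fun n hn => (H n hn).2.2.1⟩

/-- **The window of decorrelation.** -/
theorem window {b : ℝ} (hb : 1 < b) (hV : VL b) (hS : SB b) :
    ∃ c C : ℝ, 0 < c ∧ 0 < C ∧ ∀ n : ℕ, 2 ≤ n →
      -- two disorders of correlation `1 - T`
      (∀ T : ℝ, 0 < T → T ≤ 1 →
        -- the covariance of the free energies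
        ((1 - C * (T * (n : ℝ) ^ (1 / 3 : ℝ)) ^ (1 / 1000 : ℝ)) *
            Var[freeEnergy n b; disorder n] ≤ crossCov n b (1 - T) ∧
          crossCov n b (1 - T) ≤ C * (T * (n : ℝ) ^ (1 / 3 : ℝ)) ^ (-(1 / 1000) : ℝ) *
            Var[freeEnergy n b; disorder n]) ∧
        -- the overlap
        (n * T * crossOverlap n b (1 - T) ≤ C * (n : ℝ) ^ (1 / 3 : ℝ) *
            (T * (n : ℝ) ^ (1 / 3 : ℝ)) ^ (1 / 1000 : ℝ) ∧
          n * T * crossOverlap n b (1 - T) ≤ C * (n : ℝ) ^ (1 / 3 : ℝ) *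
            (T * (n : ℝ) ^ (1 / 3 : ℝ)) ^ (-(1 / 1000) : ℝ)) ∧
        -- independence of the normalised free energies
        (∀ f h : ℝ → ℝ, LipschitzWith 1 f → LipschitzWith 1 h →
          |(∫ z, ∫ g, ∫ g', f (freeEnergy n b (mixed n (1 - T) z g) /
                Real.sqrt (Var[freeEnergy n b; disorder n])) *
              h (freeEnergy n b (mixed n (1 - T) z g') /
                Real.sqrt (Var[freeEnergy n b; disorder n]))
                ∂(disorder n) ∂(disorder n) ∂(disorder n)) -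
            (∫ g, f (freeEnergy n b g / Real.sqrt (Var[freeEnergy n b; disorder n]))
                ∂(disorder n)) *
              ∫ g, h (freeEnergy n b g / Real.sqrt (Var[freeEnergy n b; disorder n]))
                ∂(disorder n)| ≤ C * (T * (n : ℝ) ^ (1 / 3 : ℝ)) ^ (-(1 / 1000) : ℝ)) ∧
        -- the conditional law of the free energy
        ∀ x : ℝ, ∫ z, ((disorder n).real {g | freeEnergy n b (mixed n (1 - T) z g) ≤ x} -
          (disorder n).real {g | freeEnergy n b g ≤ x}) ^ 2 ∂(disorder n) ≤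
            C * (T * (n : ℝ) ^ (1 / 3 : ℝ)) ^ (-(1 / 3000) : ℝ)) ∧
      -- the overlap at the scale `n ^ (-1/3)` and below
      (∀ T : ℝ, 0 ≤ T → T ≤ c * (n : ℝ) ^ (-(1 / 3) : ℝ) →
        c * (n : ℝ) ^ (2 / 3 : ℝ) ≤ n * crossOverlap n b (1 - T)) ∧
      -- the Hermite levels
      ∀ m : ℕ, 1 ≤ m →
        levelVar n b m ≤ C * (m / (n : ℝ) ^ (1 / 3 : ℝ)) ^ (1 / 1000 : ℝ) *
          Var[freeEnergy n b; disorder n] ∧
        Var[freeEnergy n b; disorder n] - levelVar n b m ≤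
          C * (m / (n : ℝ) ^ (1 / 3 : ℝ)) ^ (-(1 / 1000) : ℝ) *
            Var[freeEnergy n b; disorder n] := by
  obtain ⟨C1, hC1, h1⟩ := corr_all hb hV
  obtain ⟨C2, hC2, h2⟩ := levels_all hb hV
  obtain ⟨C3, hC3, h3⟩ := cond_all hb hV hS
  obtain ⟨c, hc, hc1, h4⟩ := prof_low hb hV
  obtain ⟨c', hc', hVl⟩ := hV
  have hb2 : 0 < b ^ 2 := by positivity
  obtain ⟨C, hC⟩ : ∃ C, C = C1 + C2 + C3 := ⟨_, rfl⟩
  have a1 : C1 ≤ C := by rw [hC]; linarith
  have a2 : C2 ≤ C := by rw [hC]; linarith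
  have a3 : C3 ≤ C := by rw [hC]; linarith
  refine ⟨min c (c * (2 / b ^ 2)), C, by positivity, by linarith, fun n hn => ?_⟩
  have hn1 : 1 ≤ n := by omega
  have hnR : (1 : ℝ) ≤ n := by exact_mod_cast hn1
  have hn0 : (0 : ℝ) < n := by linarith
  have hN : 0 < (n : ℝ) ^ (1 / 3 : ℝ) := by positivity
  have hVp : 0 < Var[freeEnergy n b; disorder n] := lt_of_lt_of_le (by positivity) (hVl n hn)
  refine ⟨fun T hT hT1 => ?_, fun T hT hT1 => ?_, fun m hm => ?_⟩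
  · obtain ⟨k1, k2, k3, k4, k5⟩ := h1 n hn T hT hT1
    have k6 := h3 n hn T hT hT1
    have hs : 0 < T * (n : ℝ) ^ (1 / 3 : ℝ) := by positivity
    have p1 : 0 ≤ (T * (n : ℝ) ^ (1 / 3 : ℝ)) ^ (1 / 1000 : ℝ) := by positivity
    have p2 : 0 ≤ (T * (n : ℝ) ^ (1 / 3 : ℝ)) ^ (-(1 / 1000) : ℝ) := by positivity
    have p3 : 0 ≤ (T * (n : ℝ) ^ (1 / 3 : ℝ)) ^ (-(1 / 3000) : ℝ) := by positivity
    refine ⟨⟨?_, ?_⟩, ⟨?_, ?_⟩, fun f h hf hh => ?_, fun x => ?_⟩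
    · refine le_trans ?_ k1
      refine mul_le_mul_of_nonneg_right ?_ hVp.le
      have := mul_le_mul_of_nonneg_right a1 p1
      linarith
    · exact k2.trans (mul_le_mul_of_nonneg_right (mul_le_mul_of_nonneg_right a1 p2) hVp.le)
    · exact k3.trans (mul_le_mul_of_nonneg_right (mul_le_mul_of_nonneg_right a1 hN.le) p1)
    · exact k4.trans (mul_le_mul_of_nonneg_right (mul_le_mul_of_nonneg_right a1 hN.le) p2)
    · have h5 := lip_cov_scaled n b hn1 hf hh (t := 1 - T) (by linarith) (by linarith)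
        (Real.sqrt_pos.2 hVp)
      refine h5.trans ?_
      rw [Real.sq_sqrt hVp.le, div_le_iff₀ hVp]
      exact k5.trans (mul_le_mul_of_nonneg_right (mul_le_mul_of_nonneg_right a1 p2) hVp.le)
    · exact (k6 x).trans (mul_le_mul_of_nonneg_right a3 p3)
  · have hN3 : 0 ≤ (n : ℝ) ^ (-(1 / 3) : ℝ) := by positivity
    have k1 := h4 n hn T hT (hT1.trans (mul_le_mul_of_nonneg_right (min_le_left _ _) hN3))
    have e1 : n * crossOverlap n b (1 - T) = 2 / b ^ 2 * prof n b (1 - T) + 1 := by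
      unfold prof
      field_simp
      ring
    rw [e1]
    have hN4 : 0 ≤ (n : ℝ) ^ (2 / 3 : ℝ) := by positivity
    have k2 : min c (c * (2 / b ^ 2)) * (n : ℝ) ^ (2 / 3 : ℝ) ≤
        c * (2 / b ^ 2) * (n : ℝ) ^ (2 / 3 : ℝ) :=
      mul_le_mul_of_nonneg_right (min_le_right _ _) hN4
    have k3 := mul_le_mul_of_nonneg_left k1 (show 0 ≤ 2 / b ^ 2 by positivity)
    have e2 : 2 / b ^ 2 * (c * (n : ℝ) ^ (2 / 3 : ℝ)) =
      c * (2 / b ^ 2) * (n : ℝ) ^ (2 / 3 : ℝ) := by ring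
    linarith
  · obtain ⟨k1, k2⟩ := h2 n hn m hm
    have hs : 0 ≤ (m : ℝ) / (n : ℝ) ^ (1 / 3 : ℝ) := by positivity
    have p1 : 0 ≤ ((m : ℝ) / (n : ℝ) ^ (1 / 3 : ℝ)) ^ (1 / 1000 : ℝ) := Real.rpow_nonneg hs _
    have p2 : 0 ≤ ((m : ℝ) / (n : ℝ) ^ (1 / 3 : ℝ)) ^ (-(1 / 1000) : ℝ) := Real.rpow_nonneg hs _
    exact ⟨k1.trans (mul_le_mul_of_nonneg_right (mul_le_mul_of_nonneg_right a2 p1) hVp.le),
      k2.trans (mul_le_mul_of_nonneg_right (mul_le_mul_of_nonneg_right a2 p2) hVp.le)⟩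

end Vale.Agent.P146.H566.Ch
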