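import Vale.Agent.P146.H607.Fin4
import Vale.Agent.P146.H479.Start

/-!
# P146, two-sided order, part A: from the lower bound of the share to the exponential moments
-/

open MeasureTheory ProbabilityTheory Filter Topology

namespace Vale.Agent.P146.H566

open Vale.Agent.P146 Vale.Agent.P146.U Vale.Agent.P146.U.AP Vale.Agent.P146.U.H607
open Vale.Agent.P157.Lv Vale.Agent.P146.H425
open Vale.Agent.P146.H196 (meanF)

variable {n : ℕ} {β x : ℝ}

/-- The output of the lower half: the share of the pure law above the scale `n^(-1/6)`. -/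
def LO (β : ℝ) : Prop := ∃ c K : ℝ, ∃ n0 : ℕ, 0 < c ∧ ∀ n : ℕ, n0 ≤ n → ∀ x : ℝ,
  K * (n : ℝ) ^ (-(1 / 6) : ℝ) ≤ x → x ≤ (n : ℝ) ^ (-(1 / 10) : ℝ) → c * (n * x ^ 4) ≤ Wn n β x

/-- the same, up to the scale where the start of the lower half takes over -/
def LO23 (β : ℝ) : Prop := ∃ c K : ℝ, ∃ n0 : ℕ, 0 < c ∧ ∀ n : ℕ, n0 ≤ n → ∀ x : ℝ,
  K * (n : ℝ) ^ (-(1 / 6) : ℝ) ≤ x → x ≤ (n : ℝ) ^ (-(23 / 200) : ℝ) → c * (n * x ^ 4) ≤ Wn n β x

/-- the same for the increment of the functional over the mean (the weakest form) -/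
def LP (β : ℝ) : Prop := ∃ c K : ℝ, ∃ n0 : ℕ, 0 < c ∧ ∀ n : ℕ, n0 ≤ n → ∀ x : ℝ,
  K * (n : ℝ) ^ (-(1 / 6) : ℝ) ≤ x → x ≤ (n : ℝ) ^ (-(23 / 200) : ℝ) →
    c * (n * x ^ 5) ≤ P1 n β x - mF n β

lemma lo23_of_lo (h : LO β) : LO23 β := by
  obtain ⟨c, K, n0, hc, hL⟩ := h
  refine ⟨c, K, max n0 1, hc, fun n hn x hx hx1 => hL n ((le_max_left _ _).trans hn) x hx
    (hx1.trans ?_)⟩
  have h1 : 1 ≤ n := (le_max_right _ _).trans hn
  exact Real.rpow_le_rpow_of_exponent_le (by exact_mod_cast h1) (by norm_num)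

/-- the lower bounds of the exponential moments -/
def LE (β : ℝ) : Prop := ∃ c K : ℝ, ∃ n0 : ℕ, 0 < c ∧ 1 ≤ K ∧ ∀ n : ℕ, n0 ≤ n → ∀ x : ℝ,
  K * (n : ℝ) ^ (-(1 / 6) : ℝ) ≤ x → x ≤ 1 →
    Real.exp (c * (n * x ^ 6)) ≤ ∫ g, Real.exp (x * (freeEnergy n β g - meanF n β)) ∂(disorder n)

/-- one step: the share and the centred logarithmic moment -/
lemma Kn_ge_Wn (hx : 0 < x) : x ^ 2 / 4 * Wn n β (x / 2) ≤ Kn n β x := by
  have hx2 : 0 < x / 2 := by positivity
  have h1 := Wn_le (n := n) (β := β) (x := x / 2) (b := x) hx2 (by linarith)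
  rw [P2_one hx2, P2_self hx2 zero_le_one le_rfl] at h1
  have h2 := mean_le_W1 n β hx2
  have h3 := W_one_Kn (n := n) (β := β) hx
  rw [h3] at h1
  have e3 : x - x / 2 = x / 2 := by ring
  rw [e3] at h1
  have h4 : Wn n β (x / 2) ≤ 2 / (x / 2) * (Kn n β x / x) := by
    refine h1.trans (mul_le_mul_of_nonneg_left ?_ (by positivity))
    linarith
  have h5 := mul_le_mul_of_nonneg_left h4 (by positivity : 0 ≤ x ^ 2 / 4)
  refine h5.trans (le_of_eq ?_)
  field_simp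
  ring

/-- the centred logarithmic moment divided by the exponent increases -/
lemma Kn_scale {y : ℝ} (hx : 0 < x) (hxy : x ≤ y) : y / x * Kn n β x ≤ Kn n β y := by
  have hy : 0 < y := hx.trans_le hxy
  have h1 := W_one_Kn (n := n) (β := β) hx
  have h2 := W_one_Kn (n := n) (β := β) hy
  have h3 := P1_mono (n := n) (β := β) hx hxy
  have e1 : W x 1 (Fsk n β) 0 = P1 n β x := rfl
  have e2 : W y 1 (Fsk n β) 0 = P1 n β y := rfl
  rw [e1] at h1
  rw [e2] at h2
  have h4 : Kn n β x / x ≤ Kn n β y / y := by linarith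
  rw [div_le_iff₀ hx] at h4
  have h5 : y / x * Kn n β x ≤ y / x * (Kn n β y / y * x) :=
    mul_le_mul_of_nonneg_left h4 (by positivity)
  refine h5.trans (le_of_eq ?_)
  field_simp

lemma exp_Kn (n : ℕ) (β x : ℝ) :
    Real.exp (Kn n β x) = ∫ g, Real.exp (x * (freeEnergy n β g - meanF n β)) ∂(disorder n) := by
  unfold Kn
  refine Real.exp_log ?_
  have : IsProbabilityMeasure (disorder n) := by unfold disorder; infer_instance
  exact integral_exp_pos (int_exp_c n β x)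

lemma lp_of_lo23 (h : LO23 β) : LP β := by
  obtain ⟨c, K, n0, hc, hL⟩ := h
  refine ⟨c / 64, 2 * max K 1, max n0 1, by positivity, fun n hn x hx hx1 => ?_⟩
  have e0 : n0 ≤ n := (le_max_left _ _).trans hn
  have e3 : 1 ≤ n := (le_max_right _ _).trans hn
  have hnR : (0 : ℝ) < n := by exact_mod_cast e3
  have hp : 0 < (n : ℝ) ^ (-(1 / 6) : ℝ) := Real.rpow_pos_of_pos hnR _
  have hK1 : 1 ≤ max K 1 := le_max_right _ _
  have hx0 : 0 < x := lt_of_lt_of_le (by positivity) hx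
  have h1 : K * (n : ℝ) ^ (-(1 / 6) : ℝ) ≤ x / 2 := by
    have h2 : K * (n : ℝ) ^ (-(1 / 6) : ℝ) ≤ max K 1 * (n : ℝ) ^ (-(1 / 6) : ℝ) :=
      mul_le_mul_of_nonneg_right (le_max_left _ _) hp.le
    linarith
  have h2 := hL n e0 (x / 2) h1 (by linarith)
  have h3 := Kn_ge_Wn (n := n) (β := β) hx0
  have h4 := mul_le_mul_of_nonneg_left h2 (by positivity : 0 ≤ x ^ 2 / 4)
  have e : x ^ 2 / 4 * (c * (n * (x / 2) ^ 4)) = x * (c / 64 * (n * x ^ 5)) := by ring
  rw [e] at h4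
  have h5 := W_one_Kn (n := n) (β := β) hx0
  have e1 : W x 1 (Fsk n β) 0 = P1 n β x := rfl
  have e2 : meanF n β = mF n β := by
    have := Fsk_eq (n := n) (β := β)
    unfold meanF mF
    rw [this]
    rfl
  rw [e1, e2] at h5
  rw [h5, add_sub_cancel_left, le_div_iff₀ hx0, mul_comm]
  exact h4.trans h3

theorem le_of_lp (hβ : 1 < β) (h : LP β) : LE β := by
  obtain ⟨c, K, n0, hc, hL⟩ := h
  obtain ⟨Λ, hΛ, hS⟩ := U.H479.start_K hβ
  obtain ⟨δ, hδ, hev⟩ := hS (Λ / 2) (by positivity)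
  obtain ⟨n1, hn1⟩ := eventually_atTop.1 hev
  -- the constants
  obtain ⟨d, hd⟩ : ∃ d, d = min δ 1 := ⟨_, rfl⟩
  have hd0 : 0 < d := by rw [hd]; exact lt_min hδ one_pos
  have hd1 : d ≤ 1 := by rw [hd]; exact min_le_right _ _
  have hdδ : d ≤ δ := by rw [hd]; exact min_le_left _ _
  obtain ⟨a, ha⟩ : ∃ a, a = min c (Λ / 2 * d ^ 6) := ⟨_, rfl⟩
  have ha0 : 0 < a := by rw [ha]; exact lt_min (by positivity) (by positivity)
  have ha1 : a ≤ c := by rw [ha]; exact min_le_left _ _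
  have ha2 : a ≤ Λ / 2 * d ^ 6 := by rw [ha]; exact min_le_right _ _
  -- the middle scale is below `d` for large `n`
  have hlim : ∀ᶠ n : ℕ in atTop, (n : ℝ) ^ (-(23 / 200) : ℝ) ≤ d := by
    have h1 : Tendsto (fun n : ℕ => (n : ℝ) ^ (-(23 / 200) : ℝ)) atTop (𝓝 0) :=
      (tendsto_rpow_neg_atTop (by norm_num)).comp tendsto_natCast_atTop_atTop
    exact h1.eventually_le_const hd0
  obtain ⟨n2, hn2⟩ := eventually_atTop.1 hlim
  refine ⟨a, max K 1, max (max n0 n1) (max n2 1), ha0, le_max_right _ _, fun n hn x hx hx1 => ?_⟩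
  have e0 : n0 ≤ n := (le_max_left _ _).trans ((le_max_left _ _).trans hn)
  have e1 : n1 ≤ n := (le_max_right _ _).trans ((le_max_left _ _).trans hn)
  have e2 : n2 ≤ n := (le_max_left _ _).trans ((le_max_right _ _).trans hn)
  have e3 : 1 ≤ n := (le_max_right _ _).trans ((le_max_right _ _).trans hn)
  have hnR : (0 : ℝ) < n := by exact_mod_cast e3
  have hp : 0 < (n : ℝ) ^ (-(1 / 6) : ℝ) := Real.rpow_pos_of_pos hnR _
  have hK1 : 1 ≤ max K 1 := le_max_right _ _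
  have hx0 : 0 < x := lt_of_lt_of_le (by positivity) hx
  have hnx : 0 ≤ n * x ^ 6 := by positivity
  rw [← exp_Kn]
  refine Real.exp_le_exp.2 ?_
  rcases le_total x ((n : ℝ) ^ (-(23 / 200) : ℝ)) with h23 | h23
  · -- from the flow
    have h2 : K * (n : ℝ) ^ (-(1 / 6) : ℝ) ≤ x :=
      (mul_le_mul_of_nonneg_right (le_max_left _ _) hp.le).trans hx
    have h3 := hL n e0 x h2 h23
    have h5 := W_one_Kn (n := n) (β := β) hx0
    have e1 : W x 1 (Fsk n β) 0 = P1 n β x := rfl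
    have e2 : meanF n β = mF n β := by
      have := Fsk_eq (n := n) (β := β)
      unfold meanF mF
      rw [this]
      rfl
    rw [e1, e2] at h5
    rw [h5, add_sub_cancel_left, le_div_iff₀ hx0] at h3
    calc a * (n * x ^ 6) ≤ c * (n * x ^ 6) := mul_le_mul_of_nonneg_right ha1 hnx
      _ = c * (n * x ^ 5) * x := by ring
      _ ≤ _ := h3
  · -- from the start
    rcases le_total x d with hxd | hxd
    · have h1 := hn1 n e1 x h23 (hxd.trans hdδ)
      have h2 := (abs_le.1 h1).1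
      have h3 : a * (n * x ^ 6) ≤ Λ / 2 * (n * x ^ 6) := by
        refine mul_le_mul_of_nonneg_right (ha2.trans ?_) hnx
        have : d ^ 6 ≤ 1 := pow_le_one₀ hd0.le hd1
        nlinarith
      linarith
    · have h1 := hn1 n e1 d (hn2 n e2) hdδ
      have h2 := (abs_le.1 h1).1
      have h3 : Λ / 2 * (n * d ^ 6) ≤ Kn n β d := by linarith
      have h4 := Kn_scale (n := n) (β := β) hd0 hxd
      have h5 : Kn n β d ≤ x / d * Kn n β d := by
        refine le_mul_of_one_le_left (Kn_nonneg hd0) ?_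
        rwa [le_div_iff₀ hd0, one_mul]
      have h6 : a * (n * x ^ 6) ≤ Λ / 2 * (n * d ^ 6) := by
        have h7 : x ^ 6 ≤ 1 := pow_le_one₀ hx0.le hx1
        calc a * (n * x ^ 6) ≤ a * (n * 1) := by gcongr
          _ ≤ Λ / 2 * d ^ 6 * (n * 1) := by gcongr
          _ = _ := by ring
      linarith

theorem le_of_lo (hβ : 1 < β) (h : LO β) : LE β :=
  le_of_lp hβ (lp_of_lo23 (lo23_of_lo h))

end Vale.Agent.P146.H566
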