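import Vale.Agent.P146.H566.FinA
import Vale.Agent.P146.R2.H533.VarPos

/-!
# P146, two-sided order, part B: the variance
-/

open MeasureTheory ProbabilityTheory Filter Topology

namespace Vale.Agent.P146.H566

open Vale.Agent.P146 Vale.Agent.P146.U Vale.Agent.P146.U.AP Vale.Agent.P146.U.H607
open Vale.Agent.P157.Lv Vale.Agent.P146.H425 Vale.Agent.P146.H260.V13
open Vale.Agent.P146.H196 (meanF)

variable {n : ℕ} {β x : ℝ}

instance prob_dis (n : ℕ) : IsProbabilityMeasure (disorder n) := by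
  unfold disorder
  infer_instance

lemma exp_quad (t : ℝ) : Real.exp t - 1 - t ≤ t ^ 2 * (1 + Real.exp t) := by
  have hp := Real.exp_pos t
  have h1 := Real.add_one_le_exp (-t)
  rw [Real.exp_neg] at h1
  have h2 : (-t + 1) * Real.exp t ≤ 1 := by
    have := mul_le_mul_of_nonneg_right h1 hp.le
    rwa [inv_mul_cancel₀ hp.ne'] at this
  rcases le_total 0 t with ht | ht
  · have h3 : (1 + t) * ((-t + 1) * Real.exp t) ≤ (1 + t) * 1 :=
      mul_le_mul_of_nonneg_left h2 (by linarith)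
    nlinarith [sq_nonneg t]
  · have h4 : Real.exp t ≤ 1 + t + t ^ 2 := by
      have h5 : (1 - t) * Real.exp t ≤ (1 - t) * (1 + t + t ^ 2) := by
        have h6 : (1 - t) * (1 + t + t ^ 2) = 1 - t ^ 3 := by ring
        have h7 : t ^ 3 ≤ 0 := by
          have : t ^ 3 = t * t ^ 2 := by ring
          rw [this]
          exact mul_nonpos_of_nonpos_of_nonneg ht (sq_nonneg t)
        rw [h6]
        linarith
      exact le_of_mul_le_mul_left h5 (by linarith)
    nlinarith [sq_nonneg t]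

/-- the pointwise inequality behind the lower bound of the variance -/
lemma exp_quad' {Q : ℝ} (hQ : 0 < Q) (t : ℝ) :
    Real.exp t - 1 - t ≤ (1 + Q) * t ^ 2 + 1 / (2 * Q) * (Real.exp (3 * t) + Real.exp t) := by
  refine (exp_quad t).trans ?_
  have hp := Real.exp_pos t
  have e3 : Real.exp (3 * t) = Real.exp t ^ 3 := by
    rw [← Real.exp_nat_mul]
    norm_num
  have h1 : t ^ 2 * Real.exp t ≤ Q * t ^ 2 + 1 / (4 * Q) * (t ^ 2 * Real.exp t ^ 2) := by
    have h2 : 0 ≤ t ^ 2 * (2 * Q - Real.exp t) ^ 2 / (4 * Q) := by positivity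
    have e : t ^ 2 * (2 * Q - Real.exp t) ^ 2 / (4 * Q) =
        Q * t ^ 2 + 1 / (4 * Q) * (t ^ 2 * Real.exp t ^ 2) - t ^ 2 * Real.exp t := by
      field_simp
      ring
    linarith
  have h2 : t ^ 2 ≤ 2 * (Real.exp t + Real.exp (-t)) := by
    have h3 := Real.quadratic_le_exp_of_nonneg (abs_nonneg t)
    rw [sq_abs] at h3
    have h4 : Real.exp |t| ≤ Real.exp t + Real.exp (-t) := by
      rcases abs_cases t with ⟨h5, -⟩ | ⟨h5, -⟩
      · rw [h5]; linarith [Real.exp_pos (-t)]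
      · rw [h5]; linarith
    have := abs_nonneg t
    linarith
  have h3 : t ^ 2 * Real.exp t ^ 2 ≤ 2 * (Real.exp (3 * t) + Real.exp t) := by
    have h4 := mul_le_mul_of_nonneg_right h2 (by positivity : 0 ≤ Real.exp t ^ 2)
    have e : 2 * (Real.exp t + Real.exp (-t)) * Real.exp t ^ 2 =
        2 * (Real.exp (3 * t) + Real.exp t) := by
      rw [e3, Real.exp_neg]
      field_simp
    rwa [e] at h4
  have h4 : 1 / (4 * Q) * (t ^ 2 * Real.exp t ^ 2) ≤
      1 / (4 * Q) * (2 * (Real.exp (3 * t) + Real.exp t)) :=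
    mul_le_mul_of_nonneg_left h3 (by positivity)
  have e : 1 / (4 * Q) * (2 * (Real.exp (3 * t) + Real.exp t)) =
      1 / (2 * Q) * (Real.exp (3 * t) + Real.exp t) := by
    field_simp
    ring
  rw [e] at h4
  nlinarith

/-- **From an exponential moment to the variance.** -/
lemma var_low_gen {Ω : Type*} [MeasurableSpace Ω] {μ : Measure Ω} [IsProbabilityMeasure μ]
    {X : Ω → ℝ} {Q : ℝ} (hi : ∀ x : ℝ, Integrable (fun g => Real.exp (x * X g)) μ)
    (h0 : ∫ g, X g ∂μ = 0) (hX : Integrable X μ) (hX2 : Integrable (fun g => X g ^ 2) μ)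
    (h2 : 2 ≤ ∫ g, Real.exp (x * X g) ∂μ) (hQ : 0 < Q)
    (h3 : ∫ g, Real.exp (3 * x * X g) ∂μ + ∫ g, Real.exp (x * X g) ∂μ ≤ Q) :
    1 ≤ 2 * (1 + Q) * x ^ 2 * ∫ g, X g ^ 2 ∂μ := by
  have i1 := hi x
  have i3 := hi (3 * x)
  have hl : Integrable (fun g => Real.exp (x * X g) - 1 - x * X g) μ :=
    (i1.sub (integrable_const 1)).sub (hX.const_mul x)
  have hr : Integrable (fun g => (1 + Q) * x ^ 2 * X g ^ 2 +
      1 / (2 * Q) * (Real.exp (3 * x * X g) + Real.exp (x * X g))) μ :=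
    (hX2.const_mul _).add ((i3.add i1).const_mul _)
  have h4 := integral_mono hl hr fun g => by
    have h5 := exp_quad' hQ (x * X g)
    have e : 3 * (x * X g) = 3 * x * X g := by ring
    have e2 : (1 + Q) * (x * X g) ^ 2 = (1 + Q) * x ^ 2 * X g ^ 2 := by ring
    rw [e, e2] at h5
    exact h5
  have l1 : ∫ g, (Real.exp (x * X g) - 1 - x * X g) ∂μ = ∫ g, Real.exp (x * X g) ∂μ - 1 := by
    have a1 := integral_sub (i1.sub (integrable_const 1)) (hX.const_mul x)
    have a2 := integral_sub i1 (integrable_const (1 : ℝ))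
    have a3 := integral_const_mul x X (μ := μ)
    simp only [Pi.sub_apply] at a1 a2
    rw [h0, mul_zero] at a3
    rw [a1, a2, a3]
    simp
  have l2 : ∫ g, ((1 + Q) * x ^ 2 * X g ^ 2 +
      1 / (2 * Q) * (Real.exp (3 * x * X g) + Real.exp (x * X g))) ∂μ =
      (1 + Q) * x ^ 2 * ∫ g, X g ^ 2 ∂μ + 1 / (2 * Q) *
        (∫ g, Real.exp (3 * x * X g) ∂μ + ∫ g, Real.exp (x * X g) ∂μ) := by
    have a1 := integral_add (hX2.const_mul ((1 + Q) * x ^ 2)) ((i3.add i1).const_mul (1 / (2 * Q)))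
    have a2 := integral_add i3 i1
    have a3 := integral_const_mul ((1 + Q) * x ^ 2) (fun g => X g ^ 2) (μ := μ)
    have a4 := integral_const_mul (1 / (2 * Q)) (fun g => Real.exp (3 * x * X g) +
      Real.exp (x * X g)) (μ := μ)
    simp only [Pi.add_apply] at a1 a2
    rw [a1, a3, a4, a2]
  rw [l1, l2] at h4
  have h6 : 1 / (2 * Q) * (∫ g, Real.exp (3 * x * X g) ∂μ + ∫ g, Real.exp (x * X g) ∂μ) ≤
      1 / (2 * Q) * Q := mul_le_mul_of_nonneg_left h3 (by positivity)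
  have e : 1 / (2 * Q) * Q = 1 / 2 := by field_simp
  rw [e] at h6
  linarith

lemma int_F (n : ℕ) (β : ℝ) : Integrable (freeEnergy n β) (disorder n) := by
  have h1 : Integrable (Fsk n β) (gI (Pair n)) := (lip_Fsk n β).eg.integrable
  rwa [Fsk_eq] at h1

lemma memLp_F (n : ℕ) (β : ℝ) (p : NNReal) : MemLp (freeEnergy n β) p (disorder n) := by
  refine memLp_of_mem_interior_integrableExpSet ?_ p
  have : integrableExpSet (freeEnergy n β) (disorder n) = Set.univ := by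
    ext x
    simp only [integrableExpSet, Set.mem_ofPred_eq, Set.mem_univ, iff_true]
    exact int_exp_sk n β x
  rw [this, interior_univ]
  exact Set.mem_univ _

lemma var_eq (n : ℕ) (β : ℝ) : Var[freeEnergy n β; disorder n] =
    ∫ g, (freeEnergy n β g - meanF n β) ^ 2 ∂(disorder n) := by
  rw [variance_eq_integral (memLp_F n β 2).aemeasurable]
  rfl

lemma int_X2 (n : ℕ) (β : ℝ) :
    Integrable (fun g => (freeEnergy n β g - meanF n β) ^ 2) (disorder n) :=
  ((memLp_F n β 2).sub (memLp_const _)).integrable_sq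

lemma int_X0 (n : ℕ) (β : ℝ) : ∫ g, (freeEnergy n β g - meanF n β) ∂(disorder n) = 0 := by
  rw [integral_sub (int_F n β) (integrable_const _)]
  simp [meanF]

/-- **The variance, large `n`.** -/
theorem var_low_large (hβ : 1 < β) (h : LE β) : ∃ c : ℝ, 0 < c ∧ ∃ n0 : ℕ, ∀ n : ℕ, n0 ≤ n →
    c * (n : ℝ) ^ (1 / 3 : ℝ) ≤ Var[freeEnergy n β; disorder n] := by
  obtain ⟨D, hD, hM⟩ := mg hβ
  obtain ⟨c, K, n0, hc, hK, hL⟩ := h
  obtain ⟨k, hk⟩ : ∃ k, k = max K (1 / c) := ⟨_, rfl⟩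
  have hkK : K ≤ k := by rw [hk]; exact le_max_left _ _
  have hk1 : 1 ≤ k := hK.trans hkK
  have hkc : 1 ≤ c * k := by
    have : 1 / c ≤ k := by rw [hk]; exact le_max_right _ _
    rw [div_le_iff₀ hc] at this
    linarith
  have hk6 : 1 ≤ c * k ^ 6 := by
    have : k ≤ k ^ 6 := by
      calc k = k ^ 1 := (pow_one k).symm
        _ ≤ k ^ 6 := pow_le_pow_right₀ hk1 (by norm_num)
    nlinarith
  obtain ⟨Q, hQ⟩ : ∃ Q, Q = Real.exp (D * (3 * k) ^ 6) + Real.exp (D * k ^ 6) := ⟨_, rfl⟩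
  have hQ0 : 0 < Q := by rw [hQ]; positivity
  have hlim : ∀ᶠ n : ℕ in atTop, (n : ℝ) ^ (-(1 / 6) : ℝ) ≤ 1 / (3 * k) := by
    have h1 : Tendsto (fun n : ℕ => (n : ℝ) ^ (-(1 / 6) : ℝ)) atTop (𝓝 0) :=
      (tendsto_rpow_neg_atTop (by norm_num)).comp tendsto_natCast_atTop_atTop
    exact h1.eventually_le_const (by positivity)
  obtain ⟨n1, hn1⟩ := eventually_atTop.1 hlim
  refine ⟨1 / (2 * (1 + Q) * k ^ 2), by positivity, max n0 (max n1 1), fun n hn => ?_⟩
  have e0 : n0 ≤ n := (le_max_left _ _).trans hn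
  have e1 : n1 ≤ n := (le_max_left _ _).trans ((le_max_right _ _).trans hn)
  have e2 : 1 ≤ n := (le_max_right _ _).trans ((le_max_right _ _).trans hn)
  have hn0 : (0 : ℝ) < n := by exact_mod_cast e2
  obtain ⟨r, hr⟩ : ∃ r, r = (n : ℝ) ^ (-(1 / 6) : ℝ) := ⟨_, rfl⟩
  have hr0 : 0 < r := by rw [hr]; exact Real.rpow_pos_of_pos hn0 _
  have hr1 : 3 * k * r ≤ 1 := by
    have := hn1 n e1
    rw [← hr, le_div_iff₀ (by positivity)] at this
    linarith
  have hr6 : n * r ^ 6 = 1 := by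
    rw [hr, ← Real.rpow_natCast, ← Real.rpow_mul hn0.le]
    norm_num
    rw [Real.rpow_neg_one]
    field_simp
  have hr2 : 1 / r ^ 2 = (n : ℝ) ^ (1 / 3 : ℝ) := by
    rw [hr, ← Real.rpow_natCast, ← Real.rpow_mul hn0.le, one_div, ← Real.rpow_neg hn0.le]
    norm_num
  have hx1 : k * r ≤ 1 := by nlinarith
  have h1 := hL n e0 (k * r) (by rw [← hr]; exact mul_le_mul_of_nonneg_right hkK hr0.le) hx1
  have e6 : n * (k * r) ^ 6 = k ^ 6 := by
    calc n * (k * r) ^ 6 = k ^ 6 * (n * r ^ 6) := by ring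
      _ = k ^ 6 := by rw [hr6, mul_one]
  have e63 : n * (3 * (k * r)) ^ 6 = (3 * k) ^ 6 := by
    calc n * (3 * (k * r)) ^ 6 = (3 * k) ^ 6 * (n * r ^ 6) := by ring
      _ = (3 * k) ^ 6 := by rw [hr6, mul_one]
  rw [e6] at h1
  have h2 : 2 ≤ ∫ g, Real.exp (k * r * (freeEnergy n β g - meanF n β)) ∂(disorder n) := by
    refine le_trans ?_ h1
    have := Real.add_one_le_exp (c * k ^ 6)
    linarith
  have h3 := (hM n e2).mid (k * r) (by rw [← hr]; nlinarith) hx1
  have h4 := (hM n e2).mid (3 * (k * r)) (by rw [← hr]; nlinarith) (by linarith)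
  rw [e6] at h3
  rw [e63] at h4
  have h5 := var_low_gen (x := k * r) (Q := Q) (int_exp_c n β) (int_X0 n β)
    ((int_F n β).sub (integrable_const _)) (int_X2 n β) h2 hQ0 (by rw [hQ]; linarith)
  rw [← var_eq] at h5
  rw [← hr2]
  have h6 : 1 / (2 * (1 + Q) * k ^ 2) * (1 / r ^ 2) = 1 / (2 * (1 + Q) * (k * r) ^ 2) := by
    field_simp
  rw [h6, div_le_iff₀ (by positivity)]
  linarith

/-- a positive function on `[2, N)` is bounded below -/
lemma fin_low {f : ℕ → ℝ} (hf : ∀ n, 2 ≤ n → 0 < f n) (N : ℕ) :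
    ∃ c : ℝ, 0 < c ∧ ∀ n, 2 ≤ n → n < N → c ≤ f n := by
  induction N with
  | zero => exact ⟨1, one_pos, fun n _ h => absurd h (Nat.not_lt_zero n)⟩
  | succ N ih =>
    obtain ⟨c, hc, h⟩ := ih
    rcases lt_or_ge N 2 with hN | hN
    · exact ⟨1, one_pos, fun n h1 h2 => by omega⟩
    · refine ⟨min c (f N), lt_min hc (hf N hN), fun n h1 h2 => ?_⟩
      rcases Nat.lt_succ_iff_lt_or_eq.1 h2 with h3 | h3
      · exact (min_le_left _ _).trans (h n h1 h3)
      · rw [h3]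
        exact min_le_right _ _

/-- **The lower bound of the variance for all `n ≥ 2`.** -/
theorem var_low (hβ : 1 < β) (h : LE β) : ∃ c : ℝ, 0 < c ∧ ∀ n : ℕ, 2 ≤ n →
    c * (n : ℝ) ^ (1 / 3 : ℝ) ≤ Var[freeEnergy n β; disorder n] := by
  obtain ⟨c1, hc1, n0, h1⟩ := var_low_large hβ h
  obtain ⟨c2, hc2, h2⟩ := fin_low (f := fun n => Var[freeEnergy n β; disorder n] /
    (n : ℝ) ^ (1 / 3 : ℝ)) (fun n hn => by
      have hn0 : (0 : ℝ) < n := by exact_mod_cast (by omega : 0 < n)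
      exact div_pos (R2.H533.var_pos_of hn (by linarith) fun x => int_exp_sk n β x)
        (Real.rpow_pos_of_pos hn0 _)) n0
  refine ⟨min c1 c2, lt_min hc1 hc2, fun n hn => ?_⟩
  have hn0 : (0 : ℝ) < n := by exact_mod_cast (by omega : 0 < n)
  have hp : 0 < (n : ℝ) ^ (1 / 3 : ℝ) := Real.rpow_pos_of_pos hn0 _
  rcases lt_or_ge n n0 with h3 | h3
  · have h4 := h2 n hn h3
    rw [le_div_iff₀ hp] at h4
    exact (mul_le_mul_of_nonneg_right (min_le_right _ _) hp.le).trans h4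
  · exact (mul_le_mul_of_nonneg_right (min_le_left _ _) hp.le).trans (h1 n h3)

end Vale.Agent.P146.H566
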