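import Vale.Agent.P146.H566.FinB

/-!
# P146, two-sided order, part C: the right tail, the moments, both sides
-/

open MeasureTheory ProbabilityTheory Filter Topology

namespace Vale.Agent.P146.H566

open Vale.Agent.P146 Vale.Agent.P146.U Vale.Agent.P146.U.AP Vale.Agent.P146.U.H607
open Vale.Agent.P157.Lv Vale.Agent.P146.H425 Vale.Agent.P146.H260.V13
open Vale.Agent.P146.H196 (meanF)

section generic

variable {Ω : Type*} [MeasurableSpace Ω] {μ : Measure Ω} [IsProbabilityMeasure μ] {X : Ω → ℝ}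

/-- the converse of Chernoff -/
lemma anti_ch {ξ t l : ℝ} (hξ : 0 ≤ ξ) (hl : 0 < l) (hX : Measurable X)
    (hi : Integrable (fun g => Real.exp (ξ * X g)) μ)
    (hi2 : Integrable (fun g => Real.exp ((2 * ξ) * X g)) μ) :
    ∫ g, Real.exp (ξ * X g) ∂μ - Real.exp (ξ * t) ≤
      l / 2 * ∫ g, Real.exp ((2 * ξ) * X g) ∂μ + 1 / (2 * l) * μ.real {g | t ≤ X g} := by
  have hS : MeasurableSet {g | t ≤ X g} := measurableSet_le measurable_const hX
  have hI : Integrable (Set.indicator {g | t ≤ X g} fun _ => (1 : ℝ)) μ :=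
    (integrable_const 1).indicator hS
  have h1 : ∀ g, Real.exp (ξ * X g) - Real.exp (ξ * t) ≤
      l / 2 * Real.exp ((2 * ξ) * X g) +
        1 / (2 * l) * Set.indicator {g | t ≤ X g} (fun _ => (1 : ℝ)) g := by
    intro g
    have e1 : Real.exp ((2 * ξ) * X g) = Real.exp (ξ * X g) ^ 2 := by
      rw [← Real.exp_nat_mul]
      congr 1
      push_cast
      ring
    rw [e1]
    have p := Real.exp_pos (ξ * X g)
    have pt := Real.exp_pos (ξ * t)
    by_cases hy : g ∈ {g | t ≤ X g}
    · rw [Set.indicator_of_mem hy, mul_one]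
      have h2 : Real.exp (ξ * X g) ≤ l / 2 * Real.exp (ξ * X g) ^ 2 + 1 / (2 * l) := by
        have h3 : 0 ≤ (l * Real.exp (ξ * X g) - 1) ^ 2 / (2 * l) := by positivity
        have e : (l * Real.exp (ξ * X g) - 1) ^ 2 / (2 * l) =
            l / 2 * Real.exp (ξ * X g) ^ 2 + 1 / (2 * l) - Real.exp (ξ * X g) := by
          field_simp
          ring
        linarith
      linarith
    · rw [Set.indicator_of_notMem hy, mul_zero, add_zero]
      have h2 : X g < t := not_le.1 hy
      have h3 : Real.exp (ξ * X g) ≤ Real.exp (ξ * t) :=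
        Real.exp_le_exp.2 (mul_le_mul_of_nonneg_left h2.le hξ)
      have : 0 ≤ l / 2 * Real.exp (ξ * X g) ^ 2 := by positivity
      linarith
  have hl' : ∫ g, (Real.exp (ξ * X g) - Real.exp (ξ * t)) ∂μ =
      ∫ g, Real.exp (ξ * X g) ∂μ - Real.exp (ξ * t) := by
    have := integral_sub hi (integrable_const (μ := μ) (Real.exp (ξ * t)))
    rw [this]
    simp
  have hr' : ∫ g, (l / 2 * Real.exp ((2 * ξ) * X g) +
      1 / (2 * l) * Set.indicator {g | t ≤ X g} (fun _ => (1 : ℝ)) g) ∂μ =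
      l / 2 * ∫ g, Real.exp ((2 * ξ) * X g) ∂μ + 1 / (2 * l) * μ.real {g | t ≤ X g} := by
    rw [integral_add (hi2.const_mul _) (hI.const_mul _), integral_const_mul, integral_const_mul,
      integral_indicator_const _ hS]
    simp
  have h2 := integral_mono (hi.sub (integrable_const (Real.exp (ξ * t))))
    ((hi2.const_mul (l / 2)).add (hI.const_mul (1 / (2 * l)))) h1
  rw [← hl', ← hr']
  exact h2

/-- the lower bound of the tail from two exponential moments -/
lemma tail_gen {ξ t a b : ℝ} (hξ : 0 ≤ ξ) (hX : Measurable X)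
    (hi : Integrable (fun g => Real.exp (ξ * X g)) μ)
    (hi2 : Integrable (fun g => Real.exp ((2 * ξ) * X g)) μ)
    (h1 : Real.exp a ≤ ∫ g, Real.exp (ξ * X g) ∂μ)
    (h2 : ∫ g, Real.exp ((2 * ξ) * X g) ∂μ ≤ Real.exp b) (ha : 2 ≤ a) (ht : ξ * t ≤ a / 2) :
    Real.exp (-b) ≤ μ.real {g | t ≤ X g} := by
  have hl : 0 < Real.exp (a - b) / 2 := by positivity
  have h3 := anti_ch (t := t) hξ hl hX hi hi2
  have h4 : Real.exp (ξ * t) ≤ Real.exp a / 2 := by
    have h5 : Real.exp (ξ * t) ≤ Real.exp (a / 2) := Real.exp_le_exp.2 ht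
    have e : Real.exp a = Real.exp (a / 2) * Real.exp (a / 2) := by
      rw [← Real.exp_add]
      ring_nf
    have h6 : 2 ≤ Real.exp (a / 2) := by
      have := Real.add_one_le_exp (a / 2)
      linarith
    rw [e]
    nlinarith [Real.exp_pos (a / 2)]
  have h5 : Real.exp (a - b) / 2 / 2 * ∫ g, Real.exp ((2 * ξ) * X g) ∂μ ≤ Real.exp a / 4 := by
    have h6 := mul_le_mul_of_nonneg_left h2 (by positivity : 0 ≤ Real.exp (a - b) / 2 / 2)
    refine h6.trans (le_of_eq ?_)
    have e : Real.exp a = Real.exp (a - b) * Real.exp b := by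
      rw [← Real.exp_add]
      ring_nf
    rw [e]
    ring
  have h6 : Real.exp a / 4 ≤ 1 / (2 * (Real.exp (a - b) / 2)) * μ.real {g | t ≤ X g} := by
    linarith
  have e1 : 1 / (2 * (Real.exp (a - b) / 2)) = Real.exp (b - a) := by
    rw [show b - a = -(a - b) by ring, Real.exp_neg]
    field_simp
  rw [e1] at h6
  have h7 : Real.exp (a - b) * (Real.exp a / 4) ≤ μ.real {g | t ≤ X g} := by
    have h8 := mul_le_mul_of_nonneg_left h6 (Real.exp_pos (a - b)).le
    rwa [← mul_assoc (Real.exp (a - b)), ← Real.exp_add, show a - b + (b - a) = 0 by ring,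
      Real.exp_zero, one_mul] at h8
  refine le_trans ?_ h7
  have h8 : (4 : ℝ) ≤ Real.exp (2 * a) := by
    have h9 : Real.exp (2 * a) = Real.exp a * Real.exp a := by
      rw [← Real.exp_add]
      ring_nf
    have h10 := Real.add_one_le_exp a
    rw [h9]
    nlinarith
  have e2 : Real.exp (a - b) * (Real.exp a / 4) = Real.exp (-b) * (Real.exp (2 * a) / 4) := by
    rw [show a - b = -b + a by ring, Real.exp_add, show 2 * a = a + a by ring, Real.exp_add]
    ring
  rw [e2]
  have := Real.exp_pos (-b)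
  nlinarith

/-- **One side** from the second and the fourth moment. -/
lemma one_gen (hX : Measurable X) (hi : Integrable X μ) (hi2 : Integrable (fun g => X g ^ 2) μ)
    (hi4 : Integrable (fun g => X g ^ 4) μ) (h0 : ∫ g, X g ∂μ = 0) {V M : ℝ} (hV : 0 < V)
    (hM : 0 < M) (h2 : V ≤ ∫ g, X g ^ 2 ∂μ) (h4 : ∫ g, X g ^ 4 ∂μ ≤ M * V ^ 2) :
    1 / (128 * M) ≤ μ.real {g | √V / (16 * √M) ≤ X g} := by
  obtain ⟨v, hv⟩ : ∃ v, v = ∫ g, X g ^ 2 ∂μ := ⟨_, rfl⟩
  rw [← hv] at h2
  have hv0 : 0 < v := hV.trans_le h2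
  obtain ⟨m, hm⟩ : ∃ m, m = ∫ g, max (X g) 0 ∂μ := ⟨_, rfl⟩
  have hia : Integrable (fun g => |X g|) μ := hi.abs
  have hip : Integrable (fun g => max (X g) 0) μ := hi.pos_part
  -- the first absolute moment
  obtain ⟨L, hL⟩ : ∃ L, L = √(2 * M * v) := ⟨_, rfl⟩
  have hL0 : 0 < L := by rw [hL]; exact Real.sqrt_pos.2 (by positivity)
  have hL2 : L ^ 2 = 2 * M * v := by rw [hL]; exact Real.sq_sqrt (by positivity)
  have h5 : v ≤ L * ∫ g, |X g| ∂μ + 1 / L ^ 2 * ∫ g, X g ^ 4 ∂μ := by
    rw [hv, ← integral_const_mul, ← integral_const_mul,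
      ← integral_add (hia.const_mul _) (hi4.const_mul _)]
    refine integral_mono hi2 ((hia.const_mul _).add (hi4.const_mul _)) fun g => ?_
    simp only
    have e2 : X g ^ 2 = |X g| ^ 2 := (sq_abs _).symm
    have e4 : X g ^ 4 = |X g| ^ 4 := by
      rw [show X g ^ 4 = (X g ^ 2) ^ 2 by ring, e2]
      ring
    rw [e2, e4]
    have ha := abs_nonneg (X g)
    rcases le_total |X g| L with h | h
    · have : 0 ≤ 1 / L ^ 2 * |X g| ^ 4 := by positivity
      nlinarith
    · have h6 : |X g| ^ 2 ≤ 1 / L ^ 2 * |X g| ^ 4 := by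
        rw [one_div, inv_mul_eq_div, le_div_iff₀ (by positivity)]
        have h7 : L ^ 2 ≤ |X g| ^ 2 := pow_le_pow_left₀ hL0.le h 2
        have h8 : 0 ≤ |X g| ^ 2 := by positivity
        nlinarith
      have : 0 ≤ L * |X g| := by positivity
      linarith
  have h6 : 1 / L ^ 2 * ∫ g, X g ^ 4 ∂μ ≤ v / 2 := by
    have h7 := mul_le_mul_of_nonneg_left h4 (by positivity : 0 ≤ 1 / L ^ 2)
    refine h7.trans ?_
    rw [hL2, one_div, inv_mul_eq_div, div_le_iff₀ (by positivity)]
    have h8 : V ^ 2 ≤ v ^ 2 := pow_le_pow_left₀ hV.le h2 2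
    nlinarith
  have h7 : ∫ g, |X g| ∂μ = 2 * m := by
    have e : ∀ g, |X g| = 2 * max (X g) 0 - X g := by
      intro g
      rcases abs_cases (X g) with ⟨h, h'⟩ | ⟨h, h'⟩
      · rw [h, max_eq_left h']; ring
      · rw [h, max_eq_right h'.le]; ring
    rw [integral_congr_ae (Eventually.of_forall e), integral_sub (hip.const_mul 2) hi,
      integral_const_mul, h0, sub_zero, hm]
  rw [h7] at h5
  have h8 : v ≤ 4 * L * m := by linarith
  have hm0 : 0 < m := by
    by_contra h
    have : 4 * L * m ≤ 0 := mul_nonpos_of_nonneg_of_nonpos (by positivity) (not_lt.1 h)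
    linarith
  have h9 : v ≤ 32 * M * m ^ 2 := by
    have h10 : v ^ 2 ≤ (4 * L * m) ^ 2 := pow_le_pow_left₀ hv0.le h8 2
    have e : (4 * L * m) ^ 2 = v * (32 * M * m ^ 2) := by
      calc (4 * L * m) ^ 2 = 16 * L ^ 2 * m ^ 2 := by ring
        _ = v * (32 * M * m ^ 2) := by rw [hL2]; ring
    rw [e, sq] at h10
    exact le_of_mul_le_mul_left h10 hv0
  -- the threshold
  obtain ⟨a, ha⟩ : ∃ a, a = √V / (16 * √M) := ⟨_, rfl⟩
  have ha0 : 0 < a := by
    rw [ha]
    have := Real.sqrt_pos.2 hV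
    have := Real.sqrt_pos.2 hM
    positivity
  have ham : 2 * a ≤ m := by
    refine le_of_sq_le_sq (a := 2 * a) ?_ hm0.le
    have e : (2 * a) ^ 2 = V / (64 * M) := by
      rw [ha]
      have h1 := Real.sq_sqrt hV.le
      have h2 := Real.sq_sqrt hM.le
      rw [mul_pow, div_pow, mul_pow, h1, h2]
      field_simp
      ring
    rw [e, div_le_iff₀ (by positivity)]
    nlinarith [mul_pos hM (pow_pos hm0 2)]
  rw [← ha]
  have hS : MeasurableSet {g | a ≤ X g} := measurableSet_le measurable_const hX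
  have hI : Integrable (Set.indicator {g | a ≤ X g} fun _ => (1 : ℝ)) μ :=
    (integrable_const 1).indicator hS
  obtain ⟨η, hη⟩ : ∃ η, η = m / (2 * v) := ⟨_, rfl⟩
  have hη0 : 0 < η := by rw [hη]; positivity
  have h10 : ∀ g, max (X g) 0 ≤ a + η / 2 * X g ^ 2 +
      1 / (2 * η) * Set.indicator {g | a ≤ X g} (fun _ => (1 : ℝ)) g := by
    intro g
    by_cases hg : g ∈ {g | a ≤ X g}
    · rw [Set.indicator_of_mem hg, mul_one]
      have hg' : a ≤ X g := hg
      rw [max_eq_left (ha0.le.trans hg')]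
      have h3 : 0 ≤ (η * X g - 1) ^ 2 / (2 * η) := by positivity
      have e : (η * X g - 1) ^ 2 / (2 * η) = η / 2 * X g ^ 2 + 1 / (2 * η) - X g := by
        field_simp
        ring
      linarith
    · rw [Set.indicator_of_notMem hg, mul_zero, add_zero]
      have hg' : X g < a := not_le.1 hg
      have : 0 ≤ η / 2 * X g ^ 2 := by positivity
      have : max (X g) 0 ≤ a := max_le hg'.le ha0.le
      linarith
  have h11 : m ≤ a + η / 2 * v + 1 / (2 * η) * μ.real {g | a ≤ X g} := by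
    have h12 := integral_mono hip (((integrable_const a).add (hi2.const_mul (η / 2))).add
      (hI.const_mul (1 / (2 * η)))) h10
    have e : ∫ g, (a + η / 2 * X g ^ 2 +
        1 / (2 * η) * Set.indicator {g | a ≤ X g} (fun _ => (1 : ℝ)) g) ∂μ =
        a + η / 2 * v + 1 / (2 * η) * μ.real {g | a ≤ X g} := by
      have e1 := integral_add ((integrable_const (μ := μ) a).add (hi2.const_mul (η / 2)))
        (hI.const_mul (1 / (2 * η)))
      have e2 := integral_add (integrable_const (μ := μ) a) (hi2.const_mul (η / 2))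
      simp only [Pi.add_apply] at e1 e2
      rw [e1, e2, integral_const_mul, integral_const_mul, integral_indicator_const _ hS, ← hv]
      simp
    rw [hm, ← e]
    exact h12
  have e1 : η / 2 * v = m / 4 := by rw [hη]; field_simp; ring
  have e2 : 1 / (2 * η) = v / m := by rw [hη]; field_simp
  rw [e1, e2] at h11
  have h12 : m / 4 ≤ v / m * μ.real {g | a ≤ X g} := by linarith
  have h13 : m ^ 2 ≤ 4 * v * μ.real {g | a ≤ X g} := by
    have h14 := mul_le_mul_of_nonneg_left h12 (by positivity : 0 ≤ 4 * m)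
    have e3 : 4 * m * (m / 4) = m ^ 2 := by ring
    have e4 : 4 * m * (v / m * μ.real {g | a ≤ X g}) = 4 * v * μ.real {g | a ≤ X g} := by
      field_simp
    rwa [e3, e4] at h14
  rw [div_le_iff₀ (by positivity)]
  have h15 : v ≤ v * (μ.real {g | a ≤ X g} * (128 * M)) := by
    calc v ≤ 32 * M * m ^ 2 := h9
      _ ≤ 32 * M * (4 * v * μ.real {g | a ≤ X g}) :=
          mul_le_mul_of_nonneg_left h13 (by positivity)
      _ = _ := by ring
  have h16 : v * 1 ≤ v * (μ.real {g | a ≤ X g} * (128 * M)) := by rwa [mul_one]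
  exact le_of_mul_le_mul_left h16 hv0

end generic

end Vale.Agent.P146.H566
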