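import Vale.Agent.P146.H566.FinC
import Vale.Agent.P146.H655.GumSK
import Vale.Agent.P146.H762.SkewD

/-!
# P146, two-sided order, part D: the items of the final statement
-/

open MeasureTheory ProbabilityTheory Filter Topology

namespace Vale.Agent.P146.H566

open Vale.Agent.P146 Vale.Agent.P146.U Vale.Agent.P146.U.AP Vale.Agent.P146.U.H607
open Vale.Agent.P157.Lv Vale.Agent.P146.H425 Vale.Agent.P146.H260.V13 Vale.Agent.P146.H605
open Vale.Agent.P146.H196 (meanF sdF)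

/-- a statement which holds for all small `c` and all large `C` -/
def Ev (P : ℝ → ℝ → Prop) : Prop :=
  ∃ δ : ℝ, 0 < δ ∧ ∀ c C : ℝ, 0 < c → c ≤ δ → 1 / δ ≤ C → P c C

lemma Ev.and {P Q : ℝ → ℝ → Prop} (h : Ev P) (k : Ev Q) : Ev fun c C => P c C ∧ Q c C := by
  obtain ⟨d, hd, h⟩ := h
  obtain ⟨e, he, k⟩ := k
  refine ⟨min d e, lt_min hd he, fun c C hc hcd hC => ⟨?_, ?_⟩⟩
  · exact h c C hc (hcd.trans (min_le_left _ _))
      ((one_div_le_one_div_of_le (lt_min hd he) (min_le_left _ _)).trans hC)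
  · exact k c C hc (hcd.trans (min_le_right _ _))
      ((one_div_le_one_div_of_le (lt_min hd he) (min_le_right _ _)).trans hC)

lemma Ev.ex {P : ℝ → ℝ → Prop} (h : Ev P) : ∃ c C : ℝ, 0 < c ∧ 0 < C ∧ P c C := by
  obtain ⟨d, hd, h⟩ := h
  exact ⟨d, 1 / d, hd, by positivity, h d (1 / d) hd le_rfl le_rfl⟩

lemma Ev.mono {P Q : ℝ → ℝ → Prop} (h : Ev P) (hPQ : ∀ c C, 0 < c → 0 < C → P c C → Q c C) :
    Ev Q := by
  obtain ⟨d, hd, h⟩ := h
  exact ⟨d, hd, fun c C hc hcd hC => hPQ c C hc (lt_of_lt_of_le (by positivity) hC)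
    (h c C hc hcd hC)⟩

/-- a statement with its own constants, monotone in them -/
lemma ev_of {P : ℝ → ℝ → Prop} {c₀ C₀ : ℝ} (hc : 0 < c₀)
    (h : ∀ c C : ℝ, 0 < c → c ≤ c₀ → C₀ ≤ C → 1 ≤ C → P c C) : Ev P := by
  refine ⟨min c₀ (1 / max C₀ 1), lt_min hc (by positivity), fun c C hc0 hcd hC => ?_⟩
  have h1 : max C₀ 1 ≤ C := by
    refine le_trans ?_ hC
    rw [le_one_div (by positivity) (lt_min hc (by positivity))]
    exact min_le_right _ _
  exact h c C hc0 (hcd.trans (min_le_left _ _)) ((le_max_left _ _).trans h1)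
    ((le_max_right _ _).trans h1)

variable {n : ℕ} {β : ℝ}

/-- the powers of `n` -/
lemma pw (hn : 1 ≤ n) : ∃ s : ℝ, 1 ≤ s ∧ (n : ℝ) ^ (1 / 6 : ℝ) = s ∧
    (n : ℝ) ^ (1 / 3 : ℝ) = s ^ 2 ∧ (n : ℝ) = s ^ 6 ∧ (n : ℝ) ^ (-(1 / 6) : ℝ) = 1 / s ∧
    (n : ℝ) ^ (5 / 6 : ℝ) = s ^ 5 := by
  have hnR : (1 : ℝ) ≤ n := by exact_mod_cast hn
  have hn0 : (0 : ℝ) < n := by linarith
  refine ⟨(n : ℝ) ^ (1 / 6 : ℝ), Real.one_le_rpow hnR (by norm_num), rfl, ?_, ?_, ?_, ?_⟩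
  · rw [← Real.rpow_natCast, ← Real.rpow_mul hn0.le]; norm_num
  · rw [← Real.rpow_natCast, ← Real.rpow_mul hn0.le]; norm_num
  · rw [Real.rpow_neg hn0.le]; exact (one_div _).symm
  · rw [← Real.rpow_natCast, ← Real.rpow_mul hn0.le]; norm_num

/-- **The variance.** -/
theorem ev_var (hβ : 1 < β) (h : LE β) : Ev fun c C => ∀ n : ℕ, 2 ≤ n →
    c * (n : ℝ) ^ (1 / 3 : ℝ) ≤ Var[freeEnergy n β; disorder n] ∧
    Var[freeEnergy n β; disorder n] ≤ C * (n : ℝ) ^ (1 / 3 : ℝ) := by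
  obtain ⟨c₀, hc₀, hl⟩ := var_low hβ h
  obtain ⟨D, hD, hM⟩ := mg hβ
  refine ev_of (C₀ := D) hc₀ fun c C hc hcc hC _ n hn => ⟨?_, ?_⟩
  · exact (mul_le_mul_of_nonneg_right hcc (by positivity)).trans (hl n hn)
  · exact (hM n (by omega)).var.trans (mul_le_mul_of_nonneg_right hC (by positivity))

/-- **Both sides.** -/
theorem ev_both (hβ : 1 < β) (h : LE β) : Ev fun c _ => ∀ n : ℕ, 2 ≤ n →
    c ≤ (disorder n).real {g | meanF n β + c * (n : ℝ) ^ (1 / 6 : ℝ) ≤ freeEnergy n β g} ∧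
    c ≤ (disorder n).real {g | freeEnergy n β g ≤ meanF n β - c * (n : ℝ) ^ (1 / 6 : ℝ)} := by
  obtain ⟨c₁, hc₁, hl⟩ := var_low hβ h
  obtain ⟨D, hD, hM⟩ := mg hβ
  obtain ⟨A, hA⟩ : ∃ A, A = (2 * Real.exp D * 4 ^ (5 / 6 : ℝ)) ^ 4 := ⟨_, rfl⟩
  have hA0 : 0 < A := by rw [hA]; positivity
  obtain ⟨M, hMM⟩ : ∃ M, M = A / c₁ ^ 2 := ⟨_, rfl⟩
  have hM0 : 0 < M := by rw [hMM]; positivity
  have hsM : 0 < √M := Real.sqrt_pos.2 hM0
  have hsc : 0 < √c₁ := Real.sqrt_pos.2 hc₁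
  refine ev_of (c₀ := min (1 / (128 * M)) (√c₁ / (16 * √M))) (C₀ := 1)
    (lt_min (by positivity) (by positivity)) fun c C hc hcc _ _ n hn => ?_
  have hn1 : 1 ≤ n := by omega
  obtain ⟨s, hs1, e6, e3, e1, -, -⟩ := pw hn1
  have hs0 : 0 < s := by linarith
  have hV := hl n hn
  rw [e3] at hV
  have h4 : ∫ g, (freeEnergy n β g - meanF n β) ^ 4 ∂(disorder n) ≤ M * (c₁ * s ^ 2) ^ 2 := by
    have h5 := (hM n hn1).mom hD hn1 (p := 4) (by norm_num)
    rw [e6] at h5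
    have e : ∀ g, |freeEnergy n β g - meanF n β| ^ (4 : ℝ) = (freeEnergy n β g - meanF n β) ^ 4 := by
      intro g
      rw [show (4 : ℝ) = ((4 : ℕ) : ℝ) by norm_num, Real.rpow_natCast]
      exact Even.pow_abs (by decide) _
    simp only [e] at h5
    refine h5.trans (le_of_eq ?_)
    have e5 : ∀ z : ℝ, z ^ (4 : ℝ) = z ^ 4 := fun z => by
      rw [show (4 : ℝ) = ((4 : ℕ) : ℝ) by norm_num, Real.rpow_natCast]
    rw [e5, hMM, hA]
    field_simp
  have hmeas : Measurable fun g => freeEnergy n β g - meanF n β :=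
    (by have := (lip_Fsk n β).eg.meas; rwa [Fsk_eq] at this : Measurable (freeEnergy n β)).sub_const _
  have hi := (int_F n β).sub (integrable_const (μ := disorder n) (meanF n β))
  have hi4 : Integrable (fun g => (freeEnergy n β g - meanF n β) ^ 4) (disorder n) := by
    have h5 := ((memLp_F n β 4).sub (memLp_const (meanF n β))).integrable_norm_pow (by norm_num)
    refine h5.congr (Eventually.of_forall fun g => ?_)
    simp only [Pi.sub_apply, Real.norm_eq_abs]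
    exact Even.pow_abs (by decide) _
  rw [var_eq] at hV
  have hVp : 0 < c₁ * s ^ 2 := by positivity
  have k1 := one_gen hmeas hi (int_X2 n β) hi4 (int_X0 n β) hVp hM0 hV h4
  have eX2 : ∀ g, (-(freeEnergy n β g - meanF n β)) ^ 2 = (freeEnergy n β g - meanF n β) ^ 2 :=
    fun g => by ring
  have eX4 : ∀ g, (-(freeEnergy n β g - meanF n β)) ^ 4 = (freeEnergy n β g - meanF n β) ^ 4 :=
    fun g => by ring
  have k2 := one_gen (μ := disorder n) (X := fun g => -(freeEnergy n β g - meanF n β)) hmeas.neg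
    hi.neg (by simp only [eX2]; exact int_X2 n β) (by simp only [eX4]; exact hi4)
    (by rw [integral_neg, int_X0, neg_zero]) hVp hM0 (by simp only [eX2]; exact hV)
    (by simp only [eX4]; exact h4)
  have ea : √(c₁ * s ^ 2) / (16 * √M) = √c₁ / (16 * √M) * s := by
    rw [Real.sqrt_mul hc₁.le, Real.sqrt_sq hs0.le]
    ring
  rw [ea] at k1 k2
  have hcs : c * s ≤ √c₁ / (16 * √M) * s :=
    mul_le_mul_of_nonneg_right (hcc.trans (min_le_right _ _)) hs0.le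
  rw [e6]
  refine ⟨(hcc.trans (min_le_left _ _)).trans (k1.trans (measureReal_mono fun g hg => ?_)),
    (hcc.trans (min_le_left _ _)).trans (k2.trans (measureReal_mono fun g hg => ?_))⟩
  · simp only [Set.mem_ofPred_eq] at hg ⊢
    linarith
  · simp only [Set.mem_ofPred_eq] at hg ⊢
    linarith

/-- **Small balls.** -/
theorem ev_ball (hβ : 1 < β) (h : LE β) : Ev fun _ C => ∀ n : ℕ, 2 ≤ n → ∀ u : ℝ, 0 ≤ u → ∀ y : ℝ,
    (disorder n).real {g | |freeEnergy n β g - y| ≤ u} ≤ C * (1 + u) / (n : ℝ) ^ (1 / 6 : ℝ) := by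
  obtain ⟨c₁, hc₁, hl⟩ := var_low hβ h
  have hsc : 0 < √c₁ := Real.sqrt_pos.2 hc₁
  refine ev_of (c₀ := 1) (C₀ := 2610 / √c₁) one_pos fun c C hc hcc hC _ n hn u hu y => ?_
  obtain ⟨s, hs1, e6, e3, e1, -, -⟩ := pw (n := n) (by omega)
  have hs0 : 0 < s := by linarith
  have hV := hl n hn
  rw [e3] at hV
  have h1 : √c₁ * s ≤ √Var[freeEnergy n β; disorder n] := by
    have := Real.sqrt_le_sqrt hV
    rwa [Real.sqrt_mul hc₁.le, Real.sqrt_sq hs0.le] at this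
  refine (H655.anticoncentration n β y hu).trans ?_
  rw [e6, div_le_div_iff₀ (by positivity) hs0]
  have h2 : 2610 ≤ C * √c₁ := by
    rwa [div_le_iff₀ hsc] at hC
  have hC0 : 0 < C := by
    by_contra hneg
    have : C * √c₁ ≤ 0 := mul_nonpos_of_nonpos_of_nonneg (not_lt.1 hneg) hsc.le
    linarith
  calc 2610 * (u + 1) * s ≤ C * √c₁ * (u + 1) * s := by gcongr
    _ = C * (1 + u) * (√c₁ * s) := by ring
    _ ≤ C * (1 + u) * (1 + √Var[freeEnergy n β; disorder n]) := by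
        refine mul_le_mul_of_nonneg_left ?_ (by positivity)
        linarith

/-- **The exponential moments: lower bounds.** -/
theorem ev_low (hβ : 1 < β) (h : LE β) : Ev fun c C => ∀ n : ℕ, 2 ≤ n →
    (∀ x : ℝ, 0 ≤ x → Real.exp (c * ((n : ℝ) ^ (1 / 3 : ℝ) * x ^ 2)) ≤
      ∫ g, Real.exp (x * (freeEnergy n β g - meanF n β)) ∂(disorder n)) ∧
    ∀ x : ℝ, C * (n : ℝ) ^ (-(1 / 6) : ℝ) ≤ x → x ≤ 1 → Real.exp (c * (n * x ^ 6)) ≤
      ∫ g, Real.exp (x * (freeEnergy n β g - meanF n β)) ∂(disorder n) := by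
  obtain ⟨c₂, hc₂, hl⟩ := var_low hβ h
  obtain ⟨c₁, K, n0, hc₁, hK, hL⟩ := h
  refine ev_of (c₀ := min c₁ (c₂ / 2)) (C₀ := max K (n0 + 1)) (lt_min hc₁ (by positivity))
    fun c C hc hcc hC hC1 n hn => ⟨fun x hx => ?_, fun x hx hx1 => ?_⟩
  · refine le_trans (Real.exp_le_exp.2 ?_) ((H762.gauss_compare n (by omega) β).1 x hx).2
    have h1 := hl n hn
    have h2 : c ≤ c₂ / 2 := hcc.trans (min_le_right _ _)
    have h3 : 0 ≤ (n : ℝ) ^ (1 / 3 : ℝ) := by positivity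
    have h4 : 0 ≤ x ^ 2 := sq_nonneg x
    calc c * ((n : ℝ) ^ (1 / 3 : ℝ) * x ^ 2) ≤ c₂ / 2 * ((n : ℝ) ^ (1 / 3 : ℝ) * x ^ 2) :=
          mul_le_mul_of_nonneg_right h2 (by positivity)
      _ = x ^ 2 / 2 * (c₂ * (n : ℝ) ^ (1 / 3 : ℝ)) := by ring
      _ ≤ _ := mul_le_mul_of_nonneg_left h1 (by positivity)
  · have hn1 : 1 ≤ n := by omega
    obtain ⟨s, hs1, e6, e3, e1, em, -⟩ := pw hn1
    have hs0 : 0 < s := by linarith
    have hKC : K ≤ C := (le_max_left _ _).trans hC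
    have hnC : (n0 : ℝ) + 1 ≤ C := (le_max_right _ _).trans hC
    have hx0 : 0 < x := lt_of_lt_of_le (by rw [em]; positivity) hx
    have hnx : 0 ≤ n * x ^ 6 := by positivity
    rw [em] at hx
    have hnn : n0 ≤ n := by
      have h1 : C ≤ s := by
        have := hx.trans hx1
        rwa [mul_one_div, div_le_one hs0] at this
      have h2 : s ≤ n := by
        rw [e1]
        calc s = s ^ 1 := (pow_one s).symm
          _ ≤ s ^ 6 := pow_le_pow_right₀ hs1 (by norm_num)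
      have h3 : (n0 : ℝ) ≤ n := by linarith
      exact_mod_cast h3
    refine (Real.exp_le_exp.2 (mul_le_mul_of_nonneg_right (hcc.trans (min_le_left _ _)) hnx)).trans
      (hL n hnn x ?_ hx1)
    rw [em]
    exact (mul_le_mul_of_nonneg_right hKC (by positivity)).trans hx

/-- **The upper bounds**, all from the upper half. -/
theorem ev_up (hβ : 1 < β) : Ev fun c C => ∀ n : ℕ, 2 ≤ n →
    (∀ x : ℝ, x ≤ (n : ℝ) ^ (-(1 / 6) : ℝ) →
      ∫ g, Real.exp (x * (freeEnergy n β g - meanF n β)) ∂(disorder n) ≤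
        Real.exp (C * ((n : ℝ) ^ (1 / 3 : ℝ) * x ^ 2))) ∧
    (∀ x : ℝ, (n : ℝ) ^ (-(1 / 6) : ℝ) ≤ x → x ≤ 1 →
      ∫ g, Real.exp (x * (freeEnergy n β g - meanF n β)) ∂(disorder n) ≤
        Real.exp (C * (n * x ^ 6))) ∧
    (∀ u : ℝ, 0 ≤ u →
      (disorder n).real {g | freeEnergy n β g ≤ meanF n β - u * (n : ℝ) ^ (1 / 6 : ℝ)} ≤
        Real.exp (-(c * u ^ 2)) ∧
      (disorder n).real {g | meanF n β + u * (n : ℝ) ^ (1 / 6 : ℝ) ≤ freeEnergy n β g} ≤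
        Real.exp (-(c * min (u ^ 2) (u ^ (6 / 5 : ℝ))))) ∧
    (∀ p : ℝ, 1 ≤ p →
      ∫ g, |freeEnergy n β g - meanF n β| ^ p ∂(disorder n) ≤
        (C * (p ^ (5 / 6 : ℝ) * (n : ℝ) ^ (1 / 6 : ℝ))) ^ p ∧
      ∫ g, (max (meanF n β - freeEnergy n β g) 0) ^ p ∂(disorder n) ≤
        (C * (p ^ (1 / 2 : ℝ) * (n : ℝ) ^ (1 / 6 : ℝ))) ^ p) ∧
    (∀ t : ℝ, 0 ≤ t → t < 1 →
      n * (1 - t) * crossOverlap n β t ≤ C * (n : ℝ) ^ (1 / 3 : ℝ)) := by
  obtain ⟨A, hA, h⟩ := final hβ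
  refine ev_of (c₀ := 1 / A) (C₀ := A) (by positivity) fun c C hc hcc hC hC1 n hn => ?_
  obtain ⟨-, h1, h2, h3, h4, h5⟩ := h n (by omega)
  refine ⟨fun x hx => ?_, fun x hx hx1 => ?_, fun u hu => ⟨?_, ?_⟩, fun p hp => ⟨?_, ?_⟩,
    fun t ht ht1 => ?_⟩
  · exact (h1 x hx).trans (Real.exp_le_exp.2 (mul_le_mul_of_nonneg_right hC (by positivity)))
  · refine (h2 x hx hx1).trans (Real.exp_le_exp.2 (mul_le_mul_of_nonneg_right hC ?_))
    have : (0 : ℝ) ≤ x ^ 6 := by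
      rw [show x ^ 6 = (x ^ 3) ^ 2 by ring]
      exact sq_nonneg _
    positivity
  · refine ((h3 u hu).1).trans (Real.exp_le_exp.2 (neg_le_neg ?_))
    have := mul_le_mul_of_nonneg_right hcc (sq_nonneg u)
    calc c * u ^ 2 ≤ 1 / A * u ^ 2 := this
      _ = u ^ 2 / A := by ring
  · refine ((h3 u hu).2).trans (Real.exp_le_exp.2 (neg_le_neg ?_))
    have h0 : 0 ≤ min (u ^ 2) (u ^ (6 / 5 : ℝ)) := le_min (by positivity) (by positivity)
    have := mul_le_mul_of_nonneg_right hcc h0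
    calc c * min (u ^ 2) (u ^ (6 / 5 : ℝ)) ≤ 1 / A * min (u ^ 2) (u ^ (6 / 5 : ℝ)) := this
      _ = min (u ^ 2) (u ^ (6 / 5 : ℝ)) / A := by ring
  · exact ((h4 p hp).1).trans (Real.rpow_le_rpow (by positivity)
      (mul_le_mul_of_nonneg_right hC (by positivity)) (by linarith))
  · exact ((h4 p hp).2).trans (Real.rpow_le_rpow (by positivity)
      (mul_le_mul_of_nonneg_right hC (by positivity)) (by linarith))
  · exact (h5 t ht ht1).trans (mul_le_mul_of_nonneg_right hC (by positivity))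

/-- the lower bound of the right tail, by the exponent -/
theorem tail_v (hβ : 1 < β) (h : LE β) : ∃ a B v₀ : ℝ, ∃ n0 : ℕ, 0 < a ∧ 1 ≤ B ∧ 1 ≤ v₀ ∧
    ∀ n : ℕ, n0 ≤ n → ∀ v : ℝ, v₀ ≤ v → 2 * v ≤ (n : ℝ) ^ (1 / 6 : ℝ) →
      Real.exp (-(B * v ^ 6)) ≤ (disorder n).real
        {g | meanF n β + a * v ^ 5 * (n : ℝ) ^ (1 / 6 : ℝ) ≤ freeEnergy n β g} := by
  obtain ⟨c, K, n0, hc, hK, hL⟩ := h
  obtain ⟨D, hD, hM⟩ := mg hβ
  refine ⟨c / 2, 64 * D, max K (2 / c), max n0 1, by positivity, by linarith,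
    hK.trans (le_max_left _ _), fun n hn v hv hvn => ?_⟩
  have hn0 : n0 ≤ n := (le_max_left _ _).trans hn
  have hn1 : 1 ≤ n := (le_max_right _ _).trans hn
  obtain ⟨s, hs1, e6, e3, e1, em, -⟩ := pw hn1
  have hs0 : 0 < s := by linarith
  rw [e6] at hvn ⊢
  have hKv : K ≤ v := (le_max_left _ _).trans hv
  have hv1 : 1 ≤ v := hK.trans hKv
  have hcv : 2 ≤ c * v ^ 6 := by
    have h1 : 2 / c ≤ v := (le_max_right _ _).trans hv
    rw [div_le_iff₀ hc] at h1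
    have h2 : v ≤ v ^ 6 := by
      calc v = v ^ 1 := (pow_one v).symm
        _ ≤ v ^ 6 := pow_le_pow_right₀ hv1 (by norm_num)
    nlinarith
  obtain ⟨ξ, hξ⟩ : ∃ ξ, ξ = v / s := ⟨_, rfl⟩
  have hξ0 : 0 < ξ := by rw [hξ]; positivity
  have hξ2 : 2 * ξ ≤ 1 := by rw [hξ, ← mul_div_assoc, div_le_one hs0]; exact hvn
  have k1 := hL n hn0 ξ (by rw [em, hξ, mul_one_div]; exact div_le_div_of_nonneg_right hKv hs0.le)
    (by linarith)
  have k2 := (hM n hn1).mid (2 * ξ) (by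
    rw [em, hξ, ← mul_div_assoc]
    exact div_le_div_of_nonneg_right (by linarith) hs0.le) hξ2
  have ea : c * (n * ξ ^ 6) = c * v ^ 6 := by rw [e1, hξ]; field_simp
  have eb : D * (n * (2 * ξ) ^ 6) = 64 * D * v ^ 6 := by rw [e1, hξ]; field_simp; ring
  rw [ea] at k1
  rw [eb] at k2
  have hmeas : Measurable fun g => freeEnergy n β g - meanF n β :=
    (by have := (lip_Fsk n β).eg.meas; rwa [Fsk_eq] at this : Measurable (freeEnergy n β)).sub_const _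
  have k3 := tail_gen (t := c / 2 * v ^ 5 * s) hξ0.le hmeas (int_exp_c n β ξ)
    (int_exp_c n β (2 * ξ)) k1 k2 hcv (le_of_eq (by rw [hξ]; field_simp))
  refine k3.trans (le_of_eq ?_)
  congr 1
  ext g
  simp only [Set.mem_ofPred_eq]
  constructor <;> intro h <;> linarith

end Vale.Agent.P146.H566
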