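import Vale.Agent.P146.H566.FinD

/-!
# P146, two-sided order, part E: the right tail, the moments, the asymmetry and the chaos
-/

open MeasureTheory ProbabilityTheory Filter Topology

namespace Vale.Agent.P146.H566

open Vale.Agent.P146 Vale.Agent.P146.U Vale.Agent.P146.U.AP Vale.Agent.P146.U.H607
open Vale.Agent.P157.Lv Vale.Agent.P146.H425 Vale.Agent.P146.H260.V13 Vale.Agent.P146.H605
open Vale.Agent.P146.H196 (meanF sdF)

variable {n : ℕ} {β : ℝ}

/-- **The right tail.** -/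
theorem ev_tail (hβ : 1 < β) (h : LE β) : Ev fun c C => ∀ n : ℕ, 2 ≤ n → ∀ u : ℝ,
    C ≤ u → u ≤ c * (n : ℝ) ^ (5 / 6 : ℝ) → Real.exp (-(C * u ^ (6 / 5 : ℝ))) ≤
      (disorder n).real {g | meanF n β + u * (n : ℝ) ^ (1 / 6 : ℝ) ≤ freeEnergy n β g} := by
  obtain ⟨a, B, v₀, n0, ha, hB, hv₀, H⟩ := tail_v hβ h
  refine ev_of (c₀ := min 1 (a / 32)) (C₀ := max (max (a * v₀ ^ 5) (B / a ^ (6 / 5 : ℝ))) (n0 + 1))
    (lt_min one_pos (by positivity)) fun c C hc hcc hC hC1 n hn u hu hu1 => ?_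
  have hn1 : 1 ≤ n := by omega
  obtain ⟨s, hs1, e6, e3, e1, em, e5⟩ := pw hn1
  have hs0 : 0 < s := by linarith
  have k1 : a * v₀ ^ 5 ≤ C := ((le_max_left _ _).trans (le_max_left _ _)).trans hC
  have k2 : B / a ^ (6 / 5 : ℝ) ≤ C := ((le_max_right _ _).trans (le_max_left _ _)).trans hC
  have k3 : (n0 : ℝ) + 1 ≤ C := (le_max_right _ _).trans hC
  have hu0 : 0 < u := by linarith
  rw [e5] at hu1
  -- `n` is large
  have hnn : n0 ≤ n := by
    have h1 : u ≤ s ^ 5 := hu1.trans (by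
      have := mul_le_mul_of_nonneg_right (hcc.trans (min_le_left _ _)) (by positivity : 0 ≤ s ^ 5)
      linarith)
    have h2 : s ^ 5 ≤ n := by
      rw [e1]
      exact pow_le_pow_right₀ hs1 (by norm_num)
    have h3 : (n0 : ℝ) ≤ n := by linarith
    exact_mod_cast h3
  -- the exponent
  obtain ⟨v, hv⟩ : ∃ v, v = (u / a) ^ (1 / 5 : ℝ) := ⟨_, rfl⟩
  have hua : 0 < u / a := by positivity
  have hv0 : 0 < v := by rw [hv]; positivity
  have hv5 : v ^ 5 = u / a := by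
    rw [hv, ← Real.rpow_natCast, ← Real.rpow_mul hua.le]
    norm_num
  have hv6 : v ^ 6 = u ^ (6 / 5 : ℝ) / a ^ (6 / 5 : ℝ) := by
    rw [hv, ← Real.rpow_natCast, ← Real.rpow_mul hua.le, ← Real.div_rpow hu0.le ha.le]
    norm_num
  have hvv : v₀ ≤ v := by
    refine le_of_pow_le_pow_left₀ (n := 5) (by norm_num) hv0.le ?_
    rw [hv5, le_div_iff₀ ha]
    linarith
  have hvs : 2 * v ≤ (n : ℝ) ^ (1 / 6 : ℝ) := by
    rw [e6]
    refine le_of_pow_le_pow_left₀ (n := 5) (by norm_num) hs0.le ?_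
    have e : (2 * v) ^ 5 = 32 * (u / a) := by rw [mul_pow, hv5]; norm_num
    rw [e]
    have h1 : c * s ^ 5 ≤ a / 32 * s ^ 5 :=
      mul_le_mul_of_nonneg_right (hcc.trans (min_le_right _ _)) (by positivity)
    have h2 : u / a ≤ s ^ 5 / 32 := by
      rw [div_le_iff₀ ha]
      calc u ≤ a / 32 * s ^ 5 := hu1.trans h1
        _ = s ^ 5 / 32 * a := by ring
    linarith
  have h1 := H n hnn v hvv hvs
  have e : a * v ^ 5 = u := by rw [hv5]; field_simp
  rw [e] at h1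
  refine le_trans (Real.exp_le_exp.2 (neg_le_neg ?_)) h1
  rw [hv6]
  calc B * (u ^ (6 / 5 : ℝ) / a ^ (6 / 5 : ℝ)) = B / a ^ (6 / 5 : ℝ) * u ^ (6 / 5 : ℝ) := by ring
    _ ≤ _ := mul_le_mul_of_nonneg_right k2 (by positivity)

/-- Markov for powers -/
lemma markov_pow {Ω : Type*} [MeasurableSpace Ω] {μ : Measure Ω} [IsProbabilityMeasure μ]
    {Y : Ω → ℝ} {p t q : ℝ} (hp : 0 ≤ p) (ht : 0 ≤ t) (hY0 : ∀ g, 0 ≤ Y g)
    (hY : Integrable (fun g => Y g ^ p) μ) (hq : q ≤ μ.real {g | t ≤ Y g}) :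
    t ^ p * q ≤ ∫ g, Y g ^ p ∂μ := by
  have h1 := mul_meas_ge_le_integral_of_nonneg
    (Eventually.of_forall fun g => Real.rpow_nonneg (hY0 g) p) hY (t ^ p)
  have h2 : μ.real {g | t ≤ Y g} ≤ μ.real {g | t ^ p ≤ Y g ^ p} :=
    measureReal_mono fun g hg => Real.rpow_le_rpow ht hg hp
  have h3 : 0 ≤ t ^ p := by positivity
  calc t ^ p * q ≤ t ^ p * μ.real {g | t ^ p ≤ Y g ^ p} :=
        mul_le_mul_of_nonneg_left (hq.trans h2) h3
    _ ≤ _ := h1

lemma int_plus (n : ℕ) (β : ℝ) {p : ℝ} (hp : 0 ≤ p) :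
    Integrable (fun g => (max (freeEnergy n β g - meanF n β) 0) ^ p) (disorder n) ∧
    Integrable (fun g => (max (meanF n β - freeEnergy n β g) 0) ^ p) (disorder n) := by
  have hm : Measurable (freeEnergy n β) := by
    have := (lip_Fsk n β).eg.meas
    rwa [Fsk_eq] at this
  have h1 : Integrable (fun g => |freeEnergy n β g - meanF n β| ^ p) (disorder n) := by
    have h2 := ((memLp_F n β ⟨p, hp⟩).sub (memLp_const (meanF n β))).integrable_norm_rpow'
    exact h2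
  constructor
  · refine h1.mono' ?_ (Eventually.of_forall fun g => ?_)
    · exact (((hm.sub_const _).max measurable_const).pow_const p).aestronglyMeasurable
    · rw [Real.norm_eq_abs, abs_of_nonneg (by positivity)]
      refine Real.rpow_le_rpow (le_max_right _ _) (max_le (le_abs_self _) (abs_nonneg _)) hp
  · refine h1.mono' ?_ (Eventually.of_forall fun g => ?_)
    · exact (((measurable_const.sub hm).max measurable_const).pow_const p).aestronglyMeasurable
    · rw [Real.norm_eq_abs, abs_of_nonneg (by positivity)]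
      refine Real.rpow_le_rpow (le_max_right _ _) (max_le ?_ (abs_nonneg _)) hp
      rw [abs_sub_comm]
      exact le_abs_self _

/-- **The moments.** -/
theorem ev_mom (hβ : 1 < β) (h : LE β) : Ev fun c _ => ∀ n : ℕ, 2 ≤ n →
    (∀ p : ℝ, 1 ≤ p → p ≤ c * n → (c * (p ^ (5 / 6 : ℝ) * (n : ℝ) ^ (1 / 6 : ℝ))) ^ p ≤
      ∫ g, (max (freeEnergy n β g - meanF n β) 0) ^ p ∂(disorder n)) ∧
    ∀ p : ℝ, 0 < p → c * (c * (n : ℝ) ^ (1 / 6 : ℝ)) ^ p ≤
      ∫ g, (max (meanF n β - freeEnergy n β g) 0) ^ p ∂(disorder n) ∧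
      c * (c * (n : ℝ) ^ (1 / 6 : ℝ)) ^ p ≤
      ∫ g, (max (freeEnergy n β g - meanF n β) 0) ^ p ∂(disorder n) := by
  obtain ⟨δ, hδ, hb⟩ := ev_both hβ h
  obtain ⟨a, B, v₀, n0, ha, hB, hv₀, H⟩ := tail_v hβ h
  have hv0 : 0 < v₀ := by linarith
  obtain ⟨q, hq⟩ : ∃ q, q = Real.exp (-(B * v₀ ^ 6)) := ⟨_, rfl⟩
  have hq0 : 0 < q := by rw [hq]; exact Real.exp_pos _
  refine ev_of (c₀ := min (min δ (a * v₀ ^ 5 * q)) (min (1 / (n0 + 1)) (1 / (2 * v₀) ^ 6)))
    (C₀ := 1 / δ) (lt_min (lt_min hδ (by positivity)) (lt_min (by positivity) (by positivity)))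
    fun c C hc hcc hC hC1 n hn => ⟨fun p hp hpn => ?_, fun p hp => ?_⟩
  · have hn1 : 1 ≤ n := by omega
    obtain ⟨s, hs1, e6, e3, e1, em, e5⟩ := pw hn1
    have hs0 : 0 < s := by linarith
    have hp0 : 0 < p := by linarith
    have c1 : c ≤ a * v₀ ^ 5 * q := hcc.trans ((min_le_left _ _).trans (min_le_right _ _))
    have c2 : c ≤ 1 / (n0 + 1) := hcc.trans ((min_le_right _ _).trans (min_le_left _ _))
    have c3 : c ≤ 1 / (2 * v₀) ^ 6 := hcc.trans ((min_le_right _ _).trans (min_le_right _ _))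
    have hnR : (0 : ℝ) < n := by exact_mod_cast hn1
    have hnn : n0 ≤ n := by
      have h1 : (1 : ℝ) ≤ c * n := hp.trans hpn
      have h2 : c * n ≤ 1 / (n0 + 1) * n := mul_le_mul_of_nonneg_right c2 hnR.le
      have h3 : (1 : ℝ) ≤ 1 / (n0 + 1) * n := h1.trans h2
      rw [one_div, inv_mul_eq_div, le_div_iff₀ (by positivity)] at h3
      have h4 : (n0 : ℝ) ≤ n := by linarith
      exact_mod_cast h4
    obtain ⟨r, hr⟩ : ∃ r, r = p ^ (1 / 6 : ℝ) := ⟨_, rfl⟩
    have hr1 : 1 ≤ r := by rw [hr]; exact Real.one_le_rpow hp (by norm_num)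
    have hr0 : 0 < r := by linarith
    have hr6 : r ^ 6 = p := by
      rw [hr, ← Real.rpow_natCast, ← Real.rpow_mul hp0.le]
      norm_num
    have hr5 : p ^ (5 / 6 : ℝ) = r ^ 5 := by
      rw [hr, ← Real.rpow_natCast, ← Real.rpow_mul hp0.le]
      norm_num
    have hvs : 2 * (v₀ * r) ≤ (n : ℝ) ^ (1 / 6 : ℝ) := by
      rw [e6]
      refine le_of_pow_le_pow_left₀ (n := 6) (by norm_num) hs0.le ?_
      have e : (2 * (v₀ * r)) ^ 6 = (2 * v₀) ^ 6 * r ^ 6 := by ring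
      rw [e, hr6, ← e1]
      have h1 : p ≤ 1 / (2 * v₀) ^ 6 * n := hpn.trans (mul_le_mul_of_nonneg_right c3 hnR.le)
      calc (2 * v₀) ^ 6 * p ≤ (2 * v₀) ^ 6 * (1 / (2 * v₀) ^ 6 * n) :=
            mul_le_mul_of_nonneg_left h1 (by positivity)
        _ = n := by field_simp
    have h1 := H n hnn (v₀ * r) (le_mul_of_one_le_right hv0.le hr1) hvs
    rw [e6] at h1 ⊢
    have h2 : q ^ p ≤ (disorder n).real {g | a * (v₀ * r) ^ 5 * s ≤
        max (freeEnergy n β g - meanF n β) 0} := by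
      have e : Real.exp (-(B * (v₀ * r) ^ 6)) = q ^ p := by
        rw [hq, ← Real.exp_mul, mul_pow, hr6]
        ring_nf
      rw [← e]
      refine h1.trans (measureReal_mono fun g hg => ?_)
      simp only [Set.mem_ofPred_eq] at hg ⊢
      exact le_max_of_le_left (by linarith)
    have h3 := markov_pow hp0.le (by positivity) (fun g => le_max_right _ _)
      (int_plus n β hp0.le).1 h2
    refine le_trans ?_ h3
    rw [← Real.mul_rpow (by positivity) hq0.le, hr5]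
    refine Real.rpow_le_rpow (by positivity) ?_ hp0.le
    calc c * (r ^ 5 * s) ≤ a * v₀ ^ 5 * q * (r ^ 5 * s) :=
          mul_le_mul_of_nonneg_right c1 (by positivity)
      _ = _ := by ring
  · have c4 : c ≤ δ := hcc.trans ((min_le_left _ _).trans (min_le_left _ _))
    obtain ⟨h1, h2⟩ := hb c C hc c4 hC n hn
    have hs : 0 ≤ c * (n : ℝ) ^ (1 / 6 : ℝ) := by positivity
    constructor
    · rw [mul_comm]
      refine markov_pow hp.le hs (fun g => le_max_right _ _) (int_plus n β hp.le).2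
        (h2.trans (measureReal_mono fun g hg => ?_))
      simp only [Set.mem_ofPred_eq] at hg ⊢
      exact le_max_of_le_left (by linarith)
    · rw [mul_comm]
      refine markov_pow hp.le hs (fun g => le_max_right _ _) (int_plus n β hp.le).1
        (h1.trans (measureReal_mono fun g hg => ?_))
      simp only [Set.mem_ofPred_eq] at hg ⊢
      exact le_max_of_le_left (by linarith)

lemma one_le_cross (hn : 1 ≤ n) {t : ℝ} (ht : 0 ≤ t) (ht1 : t ≤ 1) :
    1 ≤ n * crossOverlap n β t := by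
  have hn0 : (0 : ℝ) < n := by exact_mod_cast hn
  rw [crossOverlap_eq n β hn ht ht1, mul_add]
  have h1 : (n : ℝ) * (1 / n) = 1 := by field_simp
  have h2 : 0 ≤ n * (2 / (n : ℝ) ^ 2 * ∑ p : Pair n, ∫ z, cm n β t p z ^ 2 ∂(disorder n)) := by
    have : 0 ≤ ∑ p : Pair n, ∫ z, cm n β t p z ^ 2 ∂(disorder n) :=
      Finset.sum_nonneg fun p _ => integral_nonneg fun z => sq_nonneg _
    positivity
  linarith

/-- **Chaos, the lower bound.** -/
theorem ev_chaos (hβ : 1 < β) (h : LE β) : Ev fun c _ => ∀ n : ℕ, 2 ≤ n →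
    ∃ t : ℝ, 0 ≤ t ∧ t < 1 ∧
      c * (n : ℝ) ^ (1 / 3 : ℝ) / Real.log n ≤ n * (1 - t) * crossOverlap n β t := by
  obtain ⟨c₁, hc₁, hl⟩ := var_low hβ h
  -- `n ≥ N` is large
  obtain ⟨N, hN⟩ : ∃ N : ℝ, N = (β ^ 2 / c₁) ^ 3 + 2 := ⟨_, rfl⟩
  have hβ0 : 0 < β := by linarith
  have hN0 : 0 < N := by rw [hN]; positivity
  have hlog2 : 0 < Real.log 2 := Real.log_pos (by norm_num)
  refine ev_of (c₀ := min (c₁ / β ^ 2) (Real.log 2 / N)) (C₀ := 1)
    (lt_min (by positivity) (by positivity)) fun c C hc hcc _ _ n hn => ?_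
  have hn1 : 1 ≤ n := by omega
  obtain ⟨s, hs1, e6, e3, e1, em, e5⟩ := pw hn1
  have hs0 : 0 < s := by linarith
  have hnR : (2 : ℝ) ≤ n := by exact_mod_cast hn
  have hL : Real.log 2 ≤ Real.log n := Real.log_le_log (by norm_num) hnR
  have hL0 : 0 < Real.log n := by linarith
  rw [e3]
  rcases le_total (n : ℝ) N with hnN | hnN
  · -- small sizes
    refine ⟨0, le_rfl, one_pos, ?_⟩
    rw [sub_zero, mul_one]
    refine le_trans ?_ (one_le_cross hn1 le_rfl zero_le_one)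
    rw [div_le_one hL0]
    have h1 : s ^ 2 ≤ n := by
      rw [e1]
      exact pow_le_pow_right₀ hs1 (by norm_num)
    have h2 : c ≤ Real.log 2 / N := hcc.trans (min_le_right _ _)
    rw [le_div_iff₀ hN0] at h2
    calc c * s ^ 2 ≤ c * N := mul_le_mul_of_nonneg_left (h1.trans hnN) hc.le
      _ ≤ _ := h2.trans hL
  · by_contra hcon
    push Not at hcon
    obtain ⟨A, hA⟩ : ∃ A, A = c * s ^ 2 / Real.log n := ⟨_, rfl⟩
    rw [← hA] at hcon
    have h1 := var_le_of_prof n β hn1 (A := β ^ 2 / 2 * A) (fun a ha ha1 => by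
      have h5 := hcon a ha ha1
      have e : (1 - a) * (β ^ 2 / 2 * (n * crossOverlap n β a - 1)) =
          β ^ 2 / 2 * (n * (1 - a) * crossOverlap n β a - (1 - a)) := by ring
      rw [e]
      refine mul_le_mul_of_nonneg_left ?_ (by positivity)
      linarith)
    have h2 := (hl n hn).trans h1
    rw [e3] at h2
    have e : β ^ 2 / 2 * A * Real.log n = β ^ 2 / 2 * (c * s ^ 2) := by
      rw [hA]
      field_simp
    rw [e] at h2
    have h3 : c ≤ c₁ / β ^ 2 := hcc.trans (min_le_left _ _)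
    rw [le_div_iff₀ (by positivity)] at h3
    have h4 : β ^ 2 / 2 * (c * s ^ 2) ≤ c₁ / 2 * s ^ 2 := by
      have := mul_le_mul_of_nonneg_right h3 (by positivity : 0 ≤ s ^ 2 / 2)
      calc β ^ 2 / 2 * (c * s ^ 2) = c * β ^ 2 * (s ^ 2 / 2) := by ring
        _ ≤ c₁ * (s ^ 2 / 2) := this
        _ = _ := by ring
    have h5 : c₁ / 2 * s ^ 2 ≤ β ^ 2 / 2 := by linarith
    have h6 : s ^ 2 ≤ β ^ 2 / c₁ := by
      rw [le_div_iff₀ hc₁]
      linarith
    have h7 : (n : ℝ) ≤ (β ^ 2 / c₁) ^ 3 := by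
      rw [e1, show s ^ 6 = (s ^ 2) ^ 3 by ring]
      exact pow_le_pow_left₀ (by positivity) h6 3
    linarith

end Vale.Agent.P146.H566
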